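import Vale.Agent.P363.H700.FormBound
import Vale.Agent.P363.R2.h518.Contract
import Vale.Agent.P363.R.KS.Defs
import Vale.Agent.P363.H574.Defs

/-! Form bounds: instances (one body, `Conf`, `ElectronState`). -/

namespace Vale.Agent.P363.H700

open MeasureTheory Filter Topology
open Vale.Agent.P363.Stmt Vale.Agent.P363.R.Sob Vale.Agent.P363.H382
open Vale.Agent.P363.H518 (insE insE_mp insE_dir insE_apply)
open Vale.Agent.P363.R.KS (H1 qf)
open scoped ContDiff ENNReal NNReal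

noncomputable section

set_option linter.unusedSectionVars false

/-- `R3 × (Fin 0 → ℝ) ≃ R3` -/
def fstE : (R3 × (Fin 0 → ℝ)) ≃L[ℝ] R3 where
  toFun q := q.1
  invFun x := (x, 0)
  map_add' _ _ := rfl
  map_smul' _ _ := rfl
  left_inv q := Prod.ext rfl (Subsingleton.elim _ _)
  right_inv _ := rfl
  continuous_toFun := continuous_fst
  continuous_invFun := by fun_prop

theorem fstE_mp : MeasurePreserving fstE
    ((volume : Measure R3).prod (volume : Measure (Fin 0 → ℝ))) volume := by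
  refine ⟨fstE.continuous.measurable, ?_⟩
  have : (volume : Measure (Fin 0 → ℝ)) = Measure.dirac 0 := by
    rw [Measure.volume_pi_eq_dirac 0]
  change Measure.map Prod.fst ((volume : Measure R3).prod (volume : Measure (Fin 0 → ℝ))) = _
  rw [this, Measure.map_fst_prod]
  simp

section one

variable {F : Type*} [NormedAddCommGroup F] [InnerProductSpace ℝ F] [CompleteSpace F]

/-- one-body form bound, vector valued. -/
theorem form_bound_one {f : R3 → F} {g : Fin 3 → R3 → F} (hf : MemLp f 2 volume)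
    (hg : ∀ k, MemLp (g k) 2 volume) (h : ∀ k, IsWD volume (e3 k) f (g k))
    {v : R3 → ℝ} (hv : MemV v) {ε : ℝ} (hε : 0 < ε) :
    Integrable (fun x => v x * ‖f x‖ ^ 2) ∧
      ∫ x, |v x| * ‖f x‖ ^ 2 ≤ ε * (∑ k : Fin 3, ∫ x, ‖g k x‖ ^ 2) +
        formC hv hε * ∫ x, ‖f x‖ ^ 2 :=
  form_bound fstE fstE_mp (p := fun x => x) (fun _ => rfl) hf hg (by simpa [fstE] using h) hv hε

end one

/-- form bound for one electron in `Conf (n+1)`. -/
theorem form_bound_conf {n : ℕ} (i : Fin (n + 1)) {f : Conf (n + 1) → ℂ}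
    {g : Fin 3 → Conf (n + 1) → ℂ} (hf : MemLp f 2 volume)
    (hg : ∀ k, MemLp (g k) 2 volume) (h : ∀ k, IsWD volume (dir i k) f (g k))
    {v : R3 → ℝ} (hv : MemV v) {ε : ℝ} (hε : 0 < ε) :
    Integrable (fun x => v (x i) * ‖f x‖ ^ 2) ∧
      ∫ x, |v (x i)| * ‖f x‖ ^ 2 ≤ ε * (∑ k : Fin 3, ∫ x, ‖g k x‖ ^ 2) +
        formC hv hε * ∫ x, ‖f x‖ ^ 2 := by
  refine form_bound (insE i) (insE_mp i) (p := fun x => x i) (fun q => ?_) hf hg ?_ hv hε
  · simp
  · intro k
    rw [insE_dir]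
    exact h k

/-! ### real `H¹(ℝ³)` functions -/

theorem H1.form_bound {f : R3 → ℝ} {g : Fin 3 → R3 → ℝ} (h : H1 f g)
    {v : R3 → ℝ} (hv : MemV v) {ε : ℝ} (hε : 0 < ε) :
    Integrable (fun x => v x * f x ^ 2) ∧
      ∫ x, |v x| * f x ^ 2 ≤
        ε * (∑ k : Fin 3, ∫ x, g k x ^ 2) + formC hv hε * ∫ x, f x ^ 2 := by
  have := form_bound_one h.mem h.gmem h.wd hv hε
  simpa only [Real.norm_eq_abs, sq_abs] using this

/-- integrability of `v f h`. -/
theorem H1.integrable_mul {f h : R3 → ℝ} {g k : Fin 3 → R3 → ℝ} (hf : H1 f g) (hh : H1 h k)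
    {v : R3 → ℝ} (hv : MemV v) : Integrable (fun x => v x * f x * h x) := by
  have i1 := (H1.form_bound hf hv one_pos).1
  have i2 := (H1.form_bound hh hv one_pos).1
  refine (i1.norm.add i2.norm).mono
    (((memV_aesm hv).mul hf.mem.1).mul hh.mem.1) (Eventually.of_forall fun x => ?_)
  simp only [Pi.add_apply, Real.norm_eq_abs, abs_mul, abs_pow, sq_abs]
  rw [abs_of_nonneg (by positivity : 0 ≤ |v x| * f x ^ 2 + |v x| * h x ^ 2)]
  have h1 : |f x| * |h x| ≤ f x ^ 2 + h x ^ 2 := by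
    have := two_mul_le_add_sq |f x| |h x|
    rw [sq_abs, sq_abs] at this
    nlinarith [mul_nonneg (abs_nonneg (f x)) (abs_nonneg (h x))]
  calc |v x| * |f x| * |h x| = |v x| * (|f x| * |h x|) := by ring
    _ ≤ |v x| * (f x ^ 2 + h x ^ 2) := mul_le_mul_of_nonneg_left h1 (abs_nonneg _)
    _ = _ := by ring

/-! ### `ElectronState` -/

section state

variable {n : ℕ} {v : R3 → ℝ}

theorem state_integrable (hv : MemV v) (Ψ : ElectronState (n + 1)) (s : Fin (n + 1) → Fin 2)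
    (i : Fin (n + 1)) : Integrable (fun x => v (x i) * ‖Ψ.amp s x‖ ^ 2) :=
  (form_bound_conf i (Ψ.amp_memLp s) (fun k => Ψ.grad_memLp s i k)
    (fun k => isWeakDeriv_iff.1 (Ψ.grad_weak s i k)) hv one_pos).1

theorem state_bound (hv : MemV v) {ε : ℝ} (hε : 0 < ε) (Ψ : ElectronState (n + 1))
    (s : Fin (n + 1) → Fin 2) (i : Fin (n + 1)) :
    ∫ x, |v (x i)| * ‖Ψ.amp s x‖ ^ 2 ≤ ε * (∑ k : Fin 3, ∫ x, ‖Ψ.grad s i k x‖ ^ 2) +
      formC hv hε * ∫ x, ‖Ψ.amp s x‖ ^ 2 :=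
  (form_bound_conf i (Ψ.amp_memLp s) (fun k => Ψ.grad_memLp s i k)
    (fun k => isWeakDeriv_iff.1 (Ψ.grad_weak s i k)) hv hε).2

theorem state_integrable_sum (hv : MemV v) (Ψ : ElectronState (n + 1))
    (s : Fin (n + 1) → Fin 2) :
    Integrable (fun x => sumPotential v x * ‖Ψ.amp s x‖ ^ 2) := by
  simp only [sumPotential, Finset.sum_mul]
  exact integrable_finsetSum _ fun i _ => state_integrable hv Ψ s i

/-- permutation covariance of sums over spins. -/
theorem sum_perm {N : ℕ} (Ψ : ElectronState N) (σ : Equiv.Perm (Fin N)) (W : Conf N → ℝ) :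
    ∑ s, ∫ x, W (x ∘ σ) * ‖Ψ.amp s x‖ ^ 2 = ∑ s, ∫ x, W x * ‖Ψ.amp s x‖ ^ 2 := by
  have h1 : ∀ s : Fin N → Fin 2, ∫ x, W (x ∘ σ) * ‖Ψ.amp s x‖ ^ 2 =
      ∫ x, W x * ‖Ψ.amp (s ∘ σ) x‖ ^ 2 := by
    intro s
    have e1 : ∫ x, W x * ‖Ψ.amp (s ∘ σ) x‖ ^ 2 =
        ∫ x, W (permE σ x) * ‖Ψ.amp (s ∘ σ) (permE σ x)‖ ^ 2 :=
      (integral_comp_equiv (permE σ) (permE_mp σ)
        (fun x => W x * ‖Ψ.amp (s ∘ σ) x‖ ^ 2)).symm
    rw [e1]
    refine integral_congr_ae ?_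
    have ha : ∀ᵐ x, Ψ.amp (s ∘ σ) (x ∘ σ) = ((Equiv.Perm.sign σ : ℤ) : ℂ) * Ψ.amp s x :=
      Ψ.antisymm σ s
    filter_upwards [ha] with x hx
    have : ‖Ψ.amp (s ∘ σ) (x ∘ σ)‖ = ‖Ψ.amp s x‖ := by
      rw [hx, norm_mul]
      rcases Int.units_eq_one_or (Equiv.Perm.sign σ) with h | h <;> simp [h]
    simp only [permE_apply, this]
  simp only [h1]
  exact Fintype.sum_equiv (Equiv.arrowCongr σ.symm (Equiv.refl _)) _ _ (fun s => by
    congr 1)

theorem sum_pot_index (Ψ : ElectronState (n + 1)) (v : R3 → ℝ) (i : Fin (n + 1)) :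
    ∑ s, ∫ x, v (x i) * ‖Ψ.amp s x‖ ^ 2 = ∑ s, ∫ x, v (x 0) * ‖Ψ.amp s x‖ ^ 2 := by
  have := sum_perm Ψ (Equiv.swap 0 i) (fun x => v (x 0))
  simpa using this

/-- `∑ₛ ∫ v(x₀)|Ψ|² = (1/(n+1)) ∫ v ρ`. -/
theorem integral_density_mul (hv : MemV v) (Ψ : ElectronState (n + 1)) :
    Integrable (fun r => v r * density Ψ r) ∧
      ∫ r, v r * density Ψ r = (n + 1 : ℝ) * ∑ s, ∫ x, v (x 0) * ‖Ψ.amp s x‖ ^ 2 := by
  have hi : ∀ s, Integrable (fun x : Conf (n + 1) => v (x 0) * ‖Ψ.amp s x‖ ^ 2) := fun s =>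
    state_integrable hv Ψ s 0
  have hp : ∀ s, Integrable (fun q : R3 × Conf n => v q.1 * ‖Ψ.amp s (Fin.cons q.1 q.2)‖ ^ 2)
      ((volume : Measure R3).prod volume) := fun s => by
    exact consE_mp.integrable_comp_of_integrable (hi s)
  have e1 : ∀ s, ∫ x, v (x 0) * ‖Ψ.amp s x‖ ^ 2 =
      ∫ r, v r * ∫ y : Conf n, ‖Ψ.amp s (Fin.cons r y)‖ ^ 2 := by
    intro s
    rw [← integral_comp_equiv consE (consE_mp (n := n))]
    simp only [consE_apply, Fin.cons_zero]
    have : (volume : Measure (R3 × Conf n)) = (volume : Measure R3).prod volume := rfl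
    rw [this, integral_prod _ (hp s)]
    simp only [integral_const_mul]
  have hI : ∀ s, Integrable (fun r => v r * ∫ y : Conf n, ‖Ψ.amp s (Fin.cons r y)‖ ^ 2) := by
    intro s
    have := (hp s).integral_prod_left
    simpa only [integral_const_mul] using this
  have hd : (fun r => v r * density Ψ r) = fun r =>
      ((n : ℝ) + 1) * ∑ s, v r * ∫ y : Conf n, ‖Ψ.amp s (Fin.cons r y)‖ ^ 2 := by
    funext r
    simp only [density, intR_eq, Finset.mul_sum]
    refine Finset.sum_congr rfl fun s _ => ?_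
    ring
  rw [hd]
  refine ⟨(integrable_finsetSum _ fun s _ => hI s).const_mul _, ?_⟩
  rw [integral_const_mul, integral_finsetSum _ fun s _ => hI s]
  simp only [e1]

/-- the energy of non-interacting electrons in terms of the density. -/
theorem energy_sumPotential (hv : MemV v) (Ψ : ElectronState (n + 1)) :
    energy (sumPotential v) Ψ = H574.kinE Ψ + ∫ r, v r * density Ψ r := by
  unfold energy H574.kinE
  congr 1
  rw [(integral_density_mul hv Ψ).2]
  have : ∀ s, intR (fun x => sumPotential v x * ‖Ψ.amp s x‖ ^ 2) =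
      ∑ i, ∫ x, v (x i) * ‖Ψ.amp s x‖ ^ 2 := by
    intro s
    rw [intR_eq]
    simp only [sumPotential, Finset.sum_mul]
    exact integral_finsetSum _ fun i _ => state_integrable hv Ψ s i
  simp only [this]
  rw [Finset.sum_comm]
  simp only [sum_pot_index]
  rw [Finset.sum_const, Finset.card_univ, Fintype.card_fin, nsmul_eq_mul]
  push_cast
  ring

/-- lower bound of the energy: form boundedness. -/
theorem abs_integral_density_le (hv : MemV v) {ε : ℝ} (hε : 0 < ε) (Ψ : ElectronState (n + 1)) :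
    |∑ s, intR (fun x => sumPotential v x * ‖Ψ.amp s x‖ ^ 2)| ≤
      2 * ε * H574.kinE Ψ + (n + 1 : ℝ) * formC hv hε * normSq Ψ := by
  have h1 : ∀ s, |intR (fun x => sumPotential v x * ‖Ψ.amp s x‖ ^ 2)| ≤
      ε * (∑ i, ∑ k, ∫ x, ‖Ψ.grad s i k x‖ ^ 2) +
        (n + 1 : ℝ) * formC hv hε * ∫ x, ‖Ψ.amp s x‖ ^ 2 := by
    intro s
    rw [intR_eq]
    calc |∫ x, sumPotential v x * ‖Ψ.amp s x‖ ^ 2|
        = |∑ i, ∫ x, v (x i) * ‖Ψ.amp s x‖ ^ 2| := by
          simp only [sumPotential, Finset.sum_mul]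
          rw [integral_finsetSum _ fun i _ => state_integrable hv Ψ s i]
      _ ≤ ∑ i, |∫ x, v (x i) * ‖Ψ.amp s x‖ ^ 2| := Finset.abs_sum_le_sum_abs _ _
      _ ≤ ∑ i, (ε * (∑ k : Fin 3, ∫ x, ‖Ψ.grad s i k x‖ ^ 2) +
            formC hv hε * ∫ x, ‖Ψ.amp s x‖ ^ 2) := by
          refine Finset.sum_le_sum fun i _ => ?_
          refine le_trans ?_ (state_bound hv hε Ψ s i)
          refine (abs_integral_le_integral_abs).trans (le_of_eq ?_)
          refine integral_congr_ae (Eventually.of_forall fun x => ?_)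
          simp only [abs_mul, abs_pow, abs_norm]
      _ = _ := by
          rw [Finset.sum_add_distrib, ← Finset.mul_sum, Finset.sum_const, Finset.card_univ,
            Fintype.card_fin, nsmul_eq_mul]
          push_cast
          ring
  calc |∑ s, intR (fun x => sumPotential v x * ‖Ψ.amp s x‖ ^ 2)|
      ≤ ∑ s, |intR (fun x => sumPotential v x * ‖Ψ.amp s x‖ ^ 2)| := Finset.abs_sum_le_sum_abs _ _
    _ ≤ ∑ s, (ε * (∑ i, ∑ k, ∫ x, ‖Ψ.grad s i k x‖ ^ 2) +
        (n + 1 : ℝ) * formC hv hε * ∫ x, ‖Ψ.amp s x‖ ^ 2) := Finset.sum_le_sum fun s _ => h1 s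
    _ = _ := by
        rw [Finset.sum_add_distrib, ← Finset.mul_sum, ← Finset.mul_sum]
        simp only [H574.kinE, normSq, intR_eq]
        ring

end state

end

end Vale.Agent.P363.H700
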