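import Vale.Agent.P363.R.Sob.Chain
import Vale.Agent.P363.H382.Conv

/-! Form bounds for potentials in `L^{3/2} + L^∞` on `H¹`. -/

namespace Vale.Agent.P363.H700

open MeasureTheory Filter Topology
open Vale.Agent.P363.Stmt Vale.Agent.P363.R.Sob Vale.Agent.P363.H382
open scoped ContDiff ENNReal NNReal

noncomputable section

set_option linter.unusedSectionVars false

section slice

variable {F : Type*} [NormedAddCommGroup F] [InnerProductSpace ℝ F] [CompleteSpace F]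

/-- Sobolev constant. -/
def sobC : ℝ≥0 := eLpNormLESNormFDerivOfEqInnerConst (volume : Measure R3) 2

theorem gns {u : R3 → F} (hu : ContDiff ℝ 1 u) (h2u : HasCompactSupport u) :
    eLpNorm u 6 volume ≤ sobC * eLpNorm (fderiv ℝ u) 2 volume := by
  have := eLpNorm_le_eLpNorm_fderiv_of_eq_inner (volume : Measure R3) hu h2u (p := 2) (p' := 6)
    (by norm_num) (by simp) (by simp; norm_num)
  exact_mod_cast this

theorem enorm_clm_sq_le (L : R3 →L[ℝ] F) : ‖L‖ₑ ^ 2 ≤ ∑ k : Fin 3, ‖L (e3 k)‖ₑ ^ 2 := by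
  have h : ‖L‖ ^ 2 ≤ ∑ k : Fin 3, ‖L (e3 k)‖ ^ 2 := by
    have h0 : 0 ≤ ∑ k : Fin 3, ‖L (e3 k)‖ ^ 2 := Finset.sum_nonneg fun _ _ => by positivity
    rw [← Real.le_sqrt (norm_nonneg _) h0]
    refine ContinuousLinearMap.opNorm_le_bound _ (Real.sqrt_nonneg _) fun z => ?_
    have hz : z = ∑ k, z k • e3 k := by
      ext j
      simp [e3, Finset.sum_apply, Pi.single_apply]
    calc ‖L z‖ = ‖∑ k, z k • L (e3 k)‖ := by
          conv_lhs => rw [hz]
          rw [map_sum]; simp only [map_smul]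
      _ ≤ ∑ k, ‖z k‖ * ‖L (e3 k)‖ := by
          refine (norm_sum_le _ _).trans (Finset.sum_le_sum fun k _ => ?_)
          rw [norm_smul]
      _ ≤ √(∑ k, ‖z k‖ ^ 2) * √(∑ k, ‖L (e3 k)‖ ^ 2) := Real.sum_mul_le_sqrt_mul_sqrt _ _ _
      _ = _ := by rw [← EuclideanSpace.norm_eq, mul_comm]
  have h' := ENNReal.ofReal_le_ofReal h
  rw [ENNReal.ofReal_sum_of_nonneg (fun _ _ => by positivity)] at h'
  simpa only [ENNReal.ofReal_pow (norm_nonneg _), ofReal_norm] using h'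

theorem lintegral_enorm_sq {α : Type*} [MeasurableSpace α] {G : Type*} [NormedAddCommGroup G]
    (μ : Measure α) (f : α → G) : ∫⁻ x, ‖f x‖ₑ ^ 2 ∂μ = eLpNorm f 2 μ ^ 2 := by
  rw [eLpNorm_eq_lintegral_rpow_enorm_toReal (by norm_num) (by norm_num)]
  simp only [ENNReal.toReal_ofNat, ENNReal.rpow_ofNat, one_div]
  rw [← ENNReal.rpow_natCast, ← ENNReal.rpow_mul]
  norm_num

/-- one-body bound for smooth functions. -/
theorem slice_bound {u : R3 → F} (hu : ContDiff ℝ 1 u) (h2u : HasCompactSupport u) {w : R3 → ℝ}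
    (hw : AEStronglyMeasurable w volume) :
    ∫⁻ x, ‖w x‖ₑ * ‖u x‖ₑ ^ 2 ≤
      (sobC ^ 2 * eLpNorm w (3 / 2) volume) * ∑ k : Fin 3, ∫⁻ x, ‖fderiv ℝ u x (e3 k)‖ₑ ^ 2 := by
  have hH := ENNReal.lintegral_mul_le_Lp_mul_Lq (volume : Measure R3)
    (p := 3 / 2) (q := 3) ⟨by norm_num, by norm_num, by norm_num⟩
    (f := fun x => ‖w x‖ₑ) (g := fun x => ‖u x‖ₑ ^ 2) hw.enorm
    (hu.continuous.aestronglyMeasurable.enorm.pow_const 2)
  have e1 : (∫⁻ x, ‖w x‖ₑ ^ (3 / 2 : ℝ)) ^ (1 / (3 / 2 : ℝ)) = eLpNorm w (3 / 2) volume := by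
    rw [eLpNorm_eq_lintegral_rpow_enorm_toReal (by norm_num) (by simp [ENNReal.div_eq_top])]
    simp
  have e2 : (∫⁻ x, (‖u x‖ₑ ^ 2) ^ (3 : ℝ)) ^ (1 / 3 : ℝ) = eLpNorm u 6 volume ^ 2 := by
    rw [eLpNorm_eq_lintegral_rpow_enorm_toReal (by norm_num) (by norm_num)]
    rw [← ENNReal.rpow_natCast (_ ^ _) 2, ← ENNReal.rpow_mul]
    have : ∀ x, (‖u x‖ₑ ^ 2) ^ (3 : ℝ) = ‖u x‖ₑ ^ (6 : ℝ≥0∞).toReal := fun x => by
      rw [← ENNReal.rpow_natCast, ← ENNReal.rpow_mul]; norm_num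
    simp only [this]
    norm_num
  rw [e1, e2] at hH
  refine hH.trans ?_
  have hg := gns hu h2u
  have hd : eLpNorm (fderiv ℝ u) 2 volume ^ 2 ≤ ∑ k : Fin 3, ∫⁻ x, ‖fderiv ℝ u x (e3 k)‖ₑ ^ 2 := by
    rw [← lintegral_enorm_sq, ← lintegral_finsetSum']
    · exact lintegral_mono fun x => enorm_clm_sq_le _
    · intro k _
      exact (((hu.continuous_fderiv (by simp)).clm_apply
        continuous_const).aestronglyMeasurable.enorm).pow_const 2
  calc eLpNorm w (3 / 2) volume * eLpNorm u 6 volume ^ 2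
      ≤ eLpNorm w (3 / 2) volume * (sobC * eLpNorm (fderiv ℝ u) 2 volume) ^ 2 := by gcongr
    _ = (sobC ^ 2 * eLpNorm w (3 / 2) volume) * eLpNorm (fderiv ℝ u) 2 volume ^ 2 := by ring
    _ ≤ _ := by gcongr

end slice

/-! ### many variables, smooth functions -/

section many

variable {F : Type*} [NormedAddCommGroup F] [InnerProductSpace ℝ F] [CompleteSpace F]
variable {E : Type*} [NormedAddCommGroup E] [NormedSpace ℝ E] [FiniteDimensional ℝ E]
  [MeasurableSpace E] [BorelSpace E] {μ : Measure E} [μ.IsAddHaarMeasure]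
variable {Y : Type*} [NormedAddCommGroup Y] [NormedSpace ℝ Y] [FiniteDimensional ℝ Y]
  [MeasurableSpace Y] [BorelSpace Y] {ν : Measure Y} [ν.IsAddHaarMeasure]

theorem slice_bound' (A : (R3 × Y) ≃L[ℝ] E)
    (hA : MeasurePreserving A ((volume : Measure R3).prod ν) μ) {p : E → R3}
    (hp : ∀ q, p (A q) = q.1) {f : E → F} (hf : ContDiff ℝ 1 f) (hc : HasCompactSupport f)
    {w : R3 → ℝ} (hw : AEStronglyMeasurable w volume) :
    ∫⁻ x, ‖w (p x)‖ₑ * ‖f x‖ₑ ^ 2 ∂μ ≤ (sobC ^ 2 * eLpNorm w (3 / 2) volume) *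
      ∑ k : Fin 3, ∫⁻ x, ‖fderiv ℝ f x (A (e3 k, 0))‖ₑ ^ 2 ∂μ := by
  have emb : MeasurableEmbedding A := A.toHomeomorph.measurableEmbedding
  have hcd : ContDiff ℝ 1 (fun q : R3 × Y => f (A q)) := hf.comp A.contDiff
  have hsl : ∀ y, ContDiff ℝ 1 (fun x : R3 => f (A (x, y))) := fun y =>
    hcd.comp (contDiff_id.prodMk contDiff_const)
  have hslc : ∀ y, HasCompactSupport (fun x : R3 => f (A (x, y))) := by
    intro y
    have h1 : HasCompactSupport (fun q : R3 × Y => f (A q)) := hc.comp_homeomorph A.toHomeomorph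
    refine HasCompactSupport.of_support_subset_isCompact (K := Prod.fst '' tsupport
      (fun q : R3 × Y => f (A q))) (h1.isCompact.image continuous_fst) ?_
    intro x hx
    exact ⟨(x, y), subset_tsupport _ hx, rfl⟩
  have hfd : ∀ x y k, fderiv ℝ (fun x : R3 => f (A (x, y))) x (e3 k)
      = fderiv ℝ f (A (x, y)) (A (e3 k, 0)) := by
    intro x y k
    have h1 : HasFDerivAt (fun x : R3 => f (A (x, y)))
        ((fderiv ℝ f (A (x, y))).comp ((A : (R3 × Y) →L[ℝ] E).comp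
          (ContinuousLinearMap.inl ℝ R3 Y))) x := by
      have h2 : HasFDerivAt f (fderiv ℝ f (A (x, y))) (A (x, y)) :=
        (hf.differentiable (by simp) _).hasFDerivAt
      have h3 : HasFDerivAt (fun x : R3 => A (x, y)) ((A : (R3 × Y) →L[ℝ] E).comp
          (ContinuousLinearMap.inl ℝ R3 Y)) x :=
        (A.hasFDerivAt).comp x (hasFDerivAt_prodMk_left x y)
      exact h2.comp x h3
    rw [h1.fderiv]; simp
  have mw : AEMeasurable (fun q : R3 × Y => ‖w q.1‖ₑ) ((volume : Measure R3).prod ν) :=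
    (hw.comp_fst).enorm
  have mf : AEMeasurable (fun q : R3 × Y => ‖f (A q)‖ₑ ^ 2) ((volume : Measure R3).prod ν) :=
    (hcd.continuous.aestronglyMeasurable.enorm).pow_const 2
  have md : ∀ k, AEMeasurable (fun q : R3 × Y => ‖fderiv ℝ f (A q) (A (e3 k, 0))‖ₑ ^ 2)
      ((volume : Measure R3).prod ν) := fun k => by
    have : Continuous (fun q : R3 × Y => fderiv ℝ f (A q) (A (e3 k, 0))) :=
      ((hf.continuous_fderiv (by simp)).comp A.continuous).clm_apply continuous_const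
    exact (this.aestronglyMeasurable.enorm).pow_const 2
  calc ∫⁻ x, ‖w (p x)‖ₑ * ‖f x‖ₑ ^ 2 ∂μ
      = ∫⁻ q, ‖w q.1‖ₑ * ‖f (A q)‖ₑ ^ 2 ∂((volume : Measure R3).prod ν) := by
        rw [← hA.lintegral_comp_emb emb]
        simp only [hp]
    _ = ∫⁻ y, ∫⁻ x, ‖w x‖ₑ * ‖f (A (x, y))‖ₑ ^ 2 ∂volume ∂ν :=
        lintegral_prod_symm _ (mw.mul mf)
    _ ≤ ∫⁻ y, (sobC ^ 2 * eLpNorm w (3 / 2) volume) *
          ∑ k : Fin 3, ∫⁻ x, ‖fderiv ℝ f (A (x, y)) (A (e3 k, 0))‖ₑ ^ 2 ∂volume ∂ν := by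
        refine lintegral_mono fun y => ?_
        refine (slice_bound (hsl y) (hslc y) hw).trans ?_
        simp only [hfd]; exact le_rfl
    _ = (sobC ^ 2 * eLpNorm w (3 / 2) volume) *
          ∑ k : Fin 3, ∫⁻ y, ∫⁻ x, ‖fderiv ℝ f (A (x, y)) (A (e3 k, 0))‖ₑ ^ 2 ∂volume ∂ν := by
        rw [lintegral_const_mul'', lintegral_finsetSum']
        · intro k _
          exact (md k).lintegral_prod_left'
        · exact Finset.aemeasurable_fun_sum _ fun k _ => (md k).lintegral_prod_left'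
    _ = _ := by
        congr 1
        refine Finset.sum_congr rfl fun k _ => ?_
        rw [← hA.lintegral_comp_emb emb, lintegral_prod_symm _ (md k)]

theorem aesm_comp_proj (A : (R3 × Y) ≃L[ℝ] E)
    (hA : MeasurePreserving A ((volume : Measure R3).prod ν) μ) {p : E → R3}
    (hp : ∀ q, p (A q) = q.1) {w : R3 → ℝ} (hw : AEStronglyMeasurable w volume) :
    AEStronglyMeasurable (fun x => w (p x)) μ := by
  have hA' : MeasurePreserving A.symm μ ((volume : Measure R3).prod ν) :=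
    MeasurePreserving.symm A.toHomeomorph.toMeasurableEquiv hA
  have h1 : AEStronglyMeasurable (fun q : R3 × Y => w q.1) ((volume : Measure R3).prod ν) :=
    hw.comp_fst
  have h2 := h1.comp_measurePreserving hA'
  refine h2.congr (Eventually.of_forall fun x => ?_)
  simp only [Function.comp_apply]
  rw [← hp (A.symm x), A.apply_symm_apply]

theorem ae_comp_proj (A : (R3 × Y) ≃L[ℝ] E)
    (hA : MeasurePreserving A ((volume : Measure R3).prod ν) μ) {p : E → R3}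
    (hp : ∀ q, p (A q) = q.1) {P : R3 → Prop} (hw : ∀ᵐ x, P x) : ∀ᵐ x ∂μ, P (p x) := by
  have hA' : MeasurePreserving A.symm μ ((volume : Measure R3).prod ν) :=
    MeasurePreserving.symm A.toHomeomorph.toMeasurableEquiv hA
  have h1 : ∀ᵐ q : R3 × Y ∂((volume : Measure R3).prod ν), P q.1 :=
    Measure.quasiMeasurePreserving_fst.ae hw
  filter_upwards [hA'.quasiMeasurePreserving.ae h1] with x hx
  rwa [← hp (A.symm x), A.apply_symm_apply] at hx

/-- extension to functions with weak derivatives. -/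
theorem weak_bound (A : (R3 × Y) ≃L[ℝ] E)
    (hA : MeasurePreserving A ((volume : Measure R3).prod ν) μ) {p : E → R3}
    (hp : ∀ q, p (A q) = q.1) {f : E → F} {g : Fin 3 → E → F} (hf : MemLp f 2 μ)
    (hg : ∀ k, MemLp (g k) 2 μ) (h : ∀ k, IsWD μ (A (e3 k, 0)) f (g k))
    {w : R3 → ℝ} (hw : AEStronglyMeasurable w volume) (hw' : eLpNorm w (3 / 2) volume ≠ ⊤) :
    ∫⁻ x, ‖w (p x)‖ₑ * ‖f x‖ₑ ^ 2 ∂μ ≤ (sobC ^ 2 * eLpNorm w (3 / 2) volume) *
      ∑ k : Fin 3, ∫⁻ x, ‖g k x‖ₑ ^ 2 ∂μ := by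
  obtain ⟨fn, fs, fc, c1, c2⟩ := exists_test_approx (b := fun k : Fin 3 => A (e3 k, 0)) hf hg h
  have m1 : TendstoInMeasure μ fn atTop f :=
    tendstoInMeasure_of_tendsto_eLpNorm two_ne_zero
      (fun n => (fs n).continuous.aestronglyMeasurable) hf.1 c1
  obtain ⟨ns, hns, a1⟩ := m1.exists_seq_tendsto_ae
  have key : ∀ n, ∫⁻ x, ‖w (p x)‖ₑ * ‖fn n x‖ₑ ^ 2 ∂μ ≤ (sobC ^ 2 * eLpNorm w (3 / 2) volume) *
      ∑ k : Fin 3, eLpNorm (fun x => fderiv ℝ (fn n) x (A (e3 k, 0))) 2 μ ^ 2 := fun n => by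
    have := slice_bound' A hA hp ((fs n).of_le (by simp)) (fc n) hw
    simpa only [lintegral_enorm_sq] using this
  have mw : AEMeasurable (fun x => ‖w (p x)‖ₑ) μ := (aesm_comp_proj A hA hp hw).enorm
  have lim : Tendsto (fun n => (sobC ^ 2 * eLpNorm w (3 / 2) volume) *
      ∑ k : Fin 3, (eLpNorm ((fun x => fderiv ℝ (fn n) x (A (e3 k, 0))) - g k) 2 μ
        + eLpNorm (g k) 2 μ) ^ 2) atTop
      (𝓝 ((sobC ^ 2 * eLpNorm w (3 / 2) volume) * ∑ k : Fin 3, (0 + eLpNorm (g k) 2 μ) ^ 2)) := by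
    refine ENNReal.Tendsto.const_mul ?_ (Or.inr (ENNReal.mul_ne_top (by simp) hw'))
    refine tendsto_finsetSum _ fun k _ => ?_
    exact ENNReal.Tendsto.pow ((c2 k).add tendsto_const_nhds)
  have key2 : ∀ n, ∫⁻ x, ‖w (p x)‖ₑ * ‖fn n x‖ₑ ^ 2 ∂μ ≤
      (sobC ^ 2 * eLpNorm w (3 / 2) volume) *
      ∑ k : Fin 3, (eLpNorm ((fun x => fderiv ℝ (fn n) x (A (e3 k, 0))) - g k) 2 μ
        + eLpNorm (g k) 2 μ) ^ 2 := by
    intro n
    refine (key n).trans ?_
    gcongr with k hk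
    have mm : AEStronglyMeasurable (fun x => fderiv ℝ (fn n) x (A (e3 k, 0))) μ :=
      (((fs n).continuous_fderiv (by simp)).clm_apply continuous_const).aestronglyMeasurable
    have := eLpNorm_add_le (μ := μ) (p := 2) (mm.sub (hg k).1) (hg k).1 (by norm_num)
    rwa [sub_add_cancel] at this
  have a2 : ∀ᵐ x ∂μ, ‖w (p x)‖ₑ * ‖f x‖ₑ ^ 2 ≤
      liminf (fun n => ‖w (p x)‖ₑ * ‖fn (ns n) x‖ₑ ^ 2) atTop := by
    filter_upwards [a1] with x hx
    refine le_of_eq (Tendsto.liminf_eq ?_).symm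
    exact ENNReal.Tendsto.const_mul (ENNReal.Tendsto.pow hx.enorm) (Or.inr (by simp))
  calc ∫⁻ x, ‖w (p x)‖ₑ * ‖f x‖ₑ ^ 2 ∂μ
      ≤ ∫⁻ x, liminf (fun n => ‖w (p x)‖ₑ * ‖fn (ns n) x‖ₑ ^ 2) atTop ∂μ := lintegral_mono_ae a2
    _ ≤ liminf (fun n => ∫⁻ x, ‖w (p x)‖ₑ * ‖fn (ns n) x‖ₑ ^ 2 ∂μ) atTop :=
        lintegral_liminf_le' fun n => mw.mul
          (((fs (ns n)).continuous.aestronglyMeasurable.enorm).pow_const 2)
    _ ≤ liminf (fun n => (sobC ^ 2 * eLpNorm w (3 / 2) volume) *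
      ∑ k : Fin 3, (eLpNorm ((fun x => fderiv ℝ (fn (ns n)) x (A (e3 k, 0))) - g k) 2 μ
        + eLpNorm (g k) 2 μ) ^ 2) atTop :=
        liminf_le_liminf (Eventually.of_forall fun n => key2 (ns n))
    _ = _ := (lim.comp hns.tendsto_atTop).liminf_eq.trans (by
        simp only [zero_add, lintegral_enorm_sq])

end many

/-! ### potentials in `L^{3/2} + L^∞` -/

theorem memV_split {v : R3 → ℝ} (hv : MemV v) {ε : ℝ} (hε : 0 < ε) :
    ∃ (a b : R3 → ℝ) (C : ℝ), 0 ≤ C ∧ MemLp a (3 / 2) volume ∧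
      AEStronglyMeasurable b volume ∧ v = a + b ∧
      sobC ^ 2 * eLpNorm a (3 / 2) volume ≤ ENNReal.ofReal ε ∧ (∀ᵐ x, ‖b x‖ ≤ C) := by
  obtain ⟨a, b, ha, hb, rfl⟩ := hv
  have ha' : MemLp a (3 / 2) volume := ha
  have hb' : MemLp b ⊤ volume := hb
  -- a measurable representative of `a`
  set a' : R3 → ℝ := ha'.1.mk a with ha'def
  have hae : a =ᵐ[volume] a' := ha'.1.ae_eq_mk
  have hm' : StronglyMeasurable a' := ha'.1.stronglyMeasurable_mk
  have hL' : MemLp a' (3 / 2) volume := ha'.ae_eq hae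
  have hδ : 0 < ε / (sobC ^ 2 + 1) := by positivity
  obtain ⟨M, hM⟩ := hL'.eLpNorm_indicator_norm_ge_le hm' hδ
  set S : Set R3 := {x | M ≤ ‖a' x‖₊} with hS
  have hSm : MeasurableSet S := measurableSet_le measurable_const
    (measurable_coe_nnreal_real.comp hm'.nnnorm.measurable)
  refine ⟨S.indicator a, fun x => Sᶜ.indicator a x + b x, max M 0 + (eLpNorm b ⊤ volume).toReal,
    by positivity, ha'.indicator hSm, (ha'.1.indicator hSm.compl).add hb'.1, ?_, ?_, ?_⟩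
  · funext x
    have := congrFun (Set.indicator_self_add_compl S a) x
    simp only [Pi.add_apply] at this ⊢
    linarith
  · have e1 : S.indicator a =ᵐ[volume] S.indicator a' := by
      filter_upwards [hae] with x hx
      by_cases hxS : x ∈ S <;> simp [hxS, hx]
    rw [eLpNorm_congr_ae e1]
    calc (sobC : ℝ≥0∞) ^ 2 * eLpNorm (S.indicator a') (3 / 2) volume
        ≤ sobC ^ 2 * ENNReal.ofReal (ε / (sobC ^ 2 + 1)) := by gcongr
      _ = ENNReal.ofReal (sobC ^ 2 * (ε / (sobC ^ 2 + 1))) := by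
          rw [ENNReal.ofReal_mul (by positivity), ENNReal.ofReal_pow (by positivity),
            ENNReal.ofReal_coe_nnreal]
      _ ≤ ENNReal.ofReal ε := by
          refine ENNReal.ofReal_le_ofReal ?_
          rw [mul_div_assoc', div_le_iff₀ (by positivity)]
          nlinarith [sq_nonneg (sobC : ℝ)]
  · have hb2 : ∀ᵐ x, ‖b x‖ ≤ (eLpNorm b ⊤ volume).toReal := by
      have := hb'.2.ne
      filter_upwards [enorm_ae_le_eLpNormEssSup b volume] with x hx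
      rw [← eLpNorm_exponent_top] at hx
      have := (ENNReal.toReal_le_toReal (by simp) this).2 hx
      simpa using this
    filter_upwards [hb2, hae] with x h1 h2
    refine (norm_add_le _ _).trans (add_le_add ?_ h1)
    by_cases hxS : x ∈ S
    · simp [hxS]
    · rw [Set.indicator_of_mem (by exact hxS), h2]
      have : ¬ (M ≤ ‖a' x‖) := hxS
      exact (not_le.1 this).le.trans (le_max_left _ _)

/-- constant in the form bound. -/
def formC {v : R3 → ℝ} (hv : MemV v) {ε : ℝ} (hε : 0 < ε) : ℝ :=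
  (memV_split hv hε).choose_spec.choose_spec.choose

theorem formC_nonneg {v : R3 → ℝ} (hv : MemV v) {ε : ℝ} (hε : 0 < ε) : 0 ≤ formC hv hε :=
  (memV_split hv hε).choose_spec.choose_spec.choose_spec.1

theorem formC_spec {v : R3 → ℝ} (hv : MemV v) {ε : ℝ} (hε : 0 < ε) :
    ∃ (a b : R3 → ℝ), MemLp a (3 / 2) volume ∧
      AEStronglyMeasurable b volume ∧ v = a + b ∧
      sobC ^ 2 * eLpNorm a (3 / 2) volume ≤ ENNReal.ofReal ε ∧ (∀ᵐ x, ‖b x‖ ≤ formC hv hε) :=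
  ⟨_, _, (memV_split hv hε).choose_spec.choose_spec.choose_spec.2⟩

theorem memV_aesm {v : R3 → ℝ} (hv : MemV v) : AEStronglyMeasurable v volume := by
  obtain ⟨a, b, ha, hb, rfl⟩ := hv
  exact (show MemLp a (3 / 2) volume from ha).1.add (show MemLp b ⊤ volume from hb).1

section formbound

variable {F : Type*} [NormedAddCommGroup F] [InnerProductSpace ℝ F] [CompleteSpace F]
variable {E : Type*} [NormedAddCommGroup E] [NormedSpace ℝ E] [FiniteDimensional ℝ E]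
  [MeasurableSpace E] [BorelSpace E] {μ : Measure E} [μ.IsAddHaarMeasure]
variable {Y : Type*} [NormedAddCommGroup Y] [NormedSpace ℝ Y] [FiniteDimensional ℝ Y]
  [MeasurableSpace Y] [BorelSpace Y] {ν : Measure Y} [ν.IsAddHaarMeasure]

theorem lint_bound (A : (R3 × Y) ≃L[ℝ] E)
    (hA : MeasurePreserving A ((volume : Measure R3).prod ν) μ) {p : E → R3}
    (hp : ∀ q, p (A q) = q.1) {f : E → F} {g : Fin 3 → E → F} (hf : MemLp f 2 μ)
    (hg : ∀ k, MemLp (g k) 2 μ) (h : ∀ k, IsWD μ (A (e3 k, 0)) f (g k))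
    {v : R3 → ℝ} (hv : MemV v) {ε : ℝ} (hε : 0 < ε) :
    ∫⁻ x, ‖v (p x)‖ₑ * ‖f x‖ₑ ^ 2 ∂μ ≤ ENNReal.ofReal ε * ∑ k : Fin 3, ∫⁻ x, ‖g k x‖ₑ ^ 2 ∂μ +
      ENNReal.ofReal (formC hv hε) * ∫⁻ x, ‖f x‖ₑ ^ 2 ∂μ := by
  obtain ⟨a, b, ha, hb, hab, h1, h2⟩ := formC_spec hv hε
  have w1 := weak_bound A hA hp hf hg h ha.1 ha.2.ne
  have hb' : ∀ᵐ x ∂μ, ‖b (p x)‖ ≤ formC hv hε := ae_comp_proj A hA hp h2
  have ma : AEMeasurable (fun x => ‖a (p x)‖ₑ) μ := (aesm_comp_proj A hA hp ha.1).enorm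
  have mf : AEMeasurable (fun x => ‖f x‖ₑ ^ 2) μ := hf.1.enorm.pow_const 2
  calc ∫⁻ x, ‖v (p x)‖ₑ * ‖f x‖ₑ ^ 2 ∂μ
      ≤ ∫⁻ x, (‖a (p x)‖ₑ * ‖f x‖ₑ ^ 2 + ENNReal.ofReal (formC hv hε) * ‖f x‖ₑ ^ 2) ∂μ := by
        refine lintegral_mono_ae ?_
        filter_upwards [hb'] with x hx
        rw [← add_mul]
        refine mul_le_mul_left ?_ _
        have hvx : v (p x) = a (p x) + b (p x) := congrFun hab _
        rw [hvx]
        refine (enorm_add_le _ _).trans ?_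
        gcongr
        rw [← ofReal_norm]
        exact ENNReal.ofReal_le_ofReal hx
    _ = ∫⁻ x, ‖a (p x)‖ₑ * ‖f x‖ₑ ^ 2 ∂μ + ENNReal.ofReal (formC hv hε) * ∫⁻ x, ‖f x‖ₑ ^ 2 ∂μ := by
        have mm : AEMeasurable (fun x => ‖a (p x)‖ₑ * ‖f x‖ₑ ^ 2) μ := ma.mul mf
        rw [lintegral_add_left' mm, lintegral_const_mul'' _ mf]
    _ ≤ _ := by
        gcongr
        refine w1.trans ?_
        gcongr

/-- the form bound. -/
theorem form_bound (A : (R3 × Y) ≃L[ℝ] E)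
    (hA : MeasurePreserving A ((volume : Measure R3).prod ν) μ) {p : E → R3}
    (hp : ∀ q, p (A q) = q.1) {f : E → F} {g : Fin 3 → E → F} (hf : MemLp f 2 μ)
    (hg : ∀ k, MemLp (g k) 2 μ) (h : ∀ k, IsWD μ (A (e3 k, 0)) f (g k))
    {v : R3 → ℝ} (hv : MemV v) {ε : ℝ} (hε : 0 < ε) :
    Integrable (fun x => v (p x) * ‖f x‖ ^ 2) μ ∧
      ∫ x, |v (p x)| * ‖f x‖ ^ 2 ∂μ ≤ ε * ∑ k : Fin 3, ∫ x, ‖g k x‖ ^ 2 ∂μ +
        formC hv hε * ∫ x, ‖f x‖ ^ 2 ∂μ := by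
  have hl := lint_bound A hA hp hf hg h hv hε
  have e1 : ∀ {u : E → F}, MemLp u 2 μ → ∫⁻ x, ‖u x‖ₑ ^ 2 ∂μ = ENNReal.ofReal (∫ x, ‖u x‖ ^ 2 ∂μ) := by
    intro u hu
    rw [ofReal_integral_eq_lintegral_ofReal ((memLp_two_iff_integrable_sq_norm hu.1).1 hu) (by
      filter_upwards with x; positivity)]
    refine lintegral_congr fun x => ?_
    rw [ENNReal.ofReal_pow (norm_nonneg _), ofReal_norm]
  have e0 : ∫⁻ x, ‖v (p x) * ‖f x‖ ^ 2‖ₑ ∂μ = ∫⁻ x, ‖v (p x)‖ₑ * ‖f x‖ₑ ^ 2 ∂μ := by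
    refine lintegral_congr fun x => ?_
    rw [enorm_mul, enorm_pow, enorm_norm]
  rw [e1 hf, ← ENNReal.ofReal_mul (formC_nonneg hv hε)] at hl
  simp only [e1 (hg _)] at hl
  rw [← ENNReal.ofReal_sum_of_nonneg (fun _ _ => integral_nonneg fun _ => by positivity),
    ← ENNReal.ofReal_mul hε.le, ← ENNReal.ofReal_add (by positivity)
      (mul_nonneg (formC_nonneg hv hε) (integral_nonneg fun _ => by positivity))] at hl
  have hI : Integrable (fun x => v (p x) * ‖f x‖ ^ 2) μ := by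
    refine ⟨(aesm_comp_proj A hA hp (memV_aesm hv)).mul (hf.1.norm.pow 2), ?_⟩
    rw [hasFiniteIntegral_iff_enorm, e0]
    exact hl.trans_lt ENNReal.ofReal_lt_top
  refine ⟨hI, ?_⟩
  have : ∫ x, |v (p x)| * ‖f x‖ ^ 2 ∂μ = ∫ x, ‖v (p x) * ‖f x‖ ^ 2‖ ∂μ := by
    refine integral_congr_ae (Eventually.of_forall fun x => ?_)
    simp only [norm_mul, Real.norm_eq_abs, abs_pow, abs_norm]
  rw [this, integral_norm_eq_lintegral_enorm hI.1, e0]
  refine ENNReal.toReal_le_of_le_ofReal ?_ hl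
  have := formC_nonneg hv hε
  positivity

end formbound

end

end Vale.Agent.P363.H700
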