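import Vale.Agent.P363.H700.StateFam
import Vale.Agent.P363.R2.h518.Pauli
import Vale.Agent.P363.H574.Slater
import Vale.Agent.P363.H574.Defs

/-! P1: a representable density has a natural family. -/

namespace Vale.Agent.P363.H700

open MeasureTheory Filter Topology
open Vale.Agent.P363.Stmt Vale.Agent.P363.R.Sob Vale.Agent.P363.H382
open Vale.Agent.P363.H518 (IsONB coef)
open Vale.Agent.P363.R.KS (H1 qf)
open Vale.Agent.P363.H574 (NatFam SO slater)
open scoped ContDiff ENNReal NNReal ComplexConjugate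

noncomputable section

set_option linter.unusedSectionVars false

theorem exists_onb (n : ℕ) : ∃ (κ : Type) (_ : Countable κ) (b : κ → Conf n → ℂ),
    IsONB (volume : Measure (Conf n)) b := by
  obtain ⟨κ, hκ, u, hu, -⟩ := H518.exists_isONB_extension (μ := (volume : Measure (Conf n)))
    (m := 0) (fun i => i.elim0) (fun i => i.elim0) (fun i => i.elim0) (fun i => i.elim0)
  exact ⟨Fin 0 ⊕ κ, inferInstance, u, hu⟩

/-- Pauli for the family -/
theorem nf_pauli {n : ℕ} {κ : Type} [Countable κ] {b : κ → Conf n → ℂ} (hb : IsONB volume b)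
    (Ψ : ElectronState (n + 1)) {u : R3 → ℝ} (hu : MemLp u 2 volume) :
    ∑' j, (∫ x, u x * nf b Ψ j x) ^ 2 ≤ 2 * (∫ x, u x ^ 2) * normSq Ψ := by
  rw [(nf_coef_sum Ψ hb hu).tsum_eq]
  have hu' : MemLp (fun x => (u x : ℂ)) 2 volume := hu.ofReal
  have := H518.pauli Ψ hu'
  simpa using this

/-! ### ground states: uniform kinetic bound -/

theorem energy_split {n : ℕ} {v : R3 → ℝ} (Ψ : ElectronState n) :
    energy (sumPotential v) Ψ = H574.kinE Ψ +
      ∑ s, intR (fun x => sumPotential v x * ‖Ψ.amp s x‖ ^ 2) := rfl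

theorem kinE_nonneg {n : ℕ} (Ψ : ElectronState n) : 0 ≤ H574.kinE Ψ := by
  unfold H574.kinE
  simp only [intR_eq]
  positivity

theorem kinE_le {n : ℕ} {v : R3 → ℝ} (hv : MemV v) (Ψ : ElectronState (n + 1))
    (h1 : normSq Ψ = 1) : H574.kinE Ψ ≤
      2 * (energy (sumPotential v) Ψ + (n + 1 : ℝ) * formC hv (by norm_num : (0 : ℝ) < 1 / 4)) := by
  have h := abs_integral_density_le hv (by norm_num : (0 : ℝ) < 1 / 4) Ψ
  rw [h1] at h
  have h2 := energy_split (v := v) Ψ
  have h3 := (abs_le.1 h).1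
  rw [h2]
  linarith

/-! ### the Slater trial states -/

/-- spatial orbital index -/
def orbIdx : Fin 5 → Fin 3 := ![0, 0, 1, 1, 2]
/-- spin index -/
def spinIdx : Fin 5 → Fin 2 := ![0, 1, 0, 1, 0]

theorem idx_inj : ∀ a b : Fin 5, orbIdx a = orbIdx b → spinIdx a = spinIdx b → a = b := by
  decide

/-- the spin orbitals with occupations (2,2,1) -/
def so (f : Fin 3 → R3 → ℝ) (gf : Fin 3 → Fin 3 → R3 → ℝ) (hf : ∀ i, H1 (f i) (gf i))
    (ho : ∀ i j, ∫ x, f i x * f j x = if i = j then 1 else 0) : SO 5 where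
  f a t x := if t = spinIdx a then ((f (orbIdx a) x : ℝ) : ℂ) else 0
  g a t k x := if t = spinIdx a then ((gf (orbIdx a) k x : ℝ) : ℂ) else 0
  fm a t := by
    by_cases h : t = spinIdx a
    · simp only [h, if_true]; exact (hf _).mem.ofReal
    · simp only [h, if_false]; exact MemLp.zero'
  gm a t k := by
    by_cases h : t = spinIdx a
    · simp only [h, if_true]; exact ((hf _).gmem k).ofReal
    · simp only [h, if_false]; exact MemLp.zero'
  wd a t k := by
    by_cases h : t = spinIdx a
    · simp only [h, if_true]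
      intro φ hφ
      have h1 := (hf (orbIdx a)).wd k φ hφ
      simp only [smul_eq_mul] at h1
      have e1 : ∫ x, (fderiv ℝ φ x (e3 k)) • ((f (orbIdx a) x : ℝ) : ℂ) =
          ((∫ x, fderiv ℝ φ x (e3 k) * f (orbIdx a) x : ℝ) : ℂ) := by
        rw [← integral_complex_ofReal]
        congr 1; funext x; simp
      have e2 : ∫ x, φ x • ((gf (orbIdx a) k x : ℝ) : ℂ) =
          ((∫ x, φ x * gf (orbIdx a) k x : ℝ) : ℂ) := by
        rw [← integral_complex_ofReal]
        congr 1; funext x; simp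
      rw [e1, e2, ← Complex.ofReal_neg]
      exact congrArg _ h1
    · simp only [h, if_false]; exact isWD_zero
  orth a b := by
    by_cases hs : spinIdx a = spinIdx b
    · have e : ∀ t : Fin 2, ∫ r : R3, conj (if t = spinIdx a then ((f (orbIdx a) r : ℝ) : ℂ) else 0) *
          (if t = spinIdx b then ((f (orbIdx b) r : ℝ) : ℂ) else 0) =
          if t = spinIdx b then ((∫ r, f (orbIdx a) r * f (orbIdx b) r : ℝ) : ℂ) else 0 := by
        intro t
        by_cases h : t = spinIdx b
        · rw [if_pos h, ← integral_complex_ofReal]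
          congr 1; funext r
          simp [h, hs]
        · simp [h]
      simp only [e]
      rw [Finset.sum_ite_eq' Finset.univ (spinIdx b)]
      simp only [Finset.mem_univ, if_true, ho]
      by_cases hab : orbIdx a = orbIdx b
      · rw [if_pos hab, if_pos (idx_inj a b hab hs)]; simp
      · rw [if_neg hab, if_neg (fun h => hab (by rw [h]))]; simp
    · have hab : a ≠ b := fun h => hs (by rw [h])
      rw [if_neg hab]
      refine Finset.sum_eq_zero fun t _ => ?_
      have : (fun r : R3 => conj (if t = spinIdx a then ((f (orbIdx a) r : ℝ) : ℂ) else 0) *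
          (if t = spinIdx b then ((f (orbIdx b) r : ℝ) : ℂ) else 0)) = fun _ => 0 := by
        funext r
        by_cases h : t = spinIdx a
        · have : t ≠ spinIdx b := fun h' => hs (h ▸ h')
          simp [this]
        · simp [h]
      rw [this]; simp

theorem so_energy {v : R3 → ℝ} (hv : MemV v) (f : Fin 3 → R3 → ℝ) (gf : Fin 3 → Fin 3 → R3 → ℝ)
    (hf : ∀ i, H1 (f i) (gf i)) (ho : ∀ i j, ∫ x, f i x * f j x = if i = j then 1 else 0) :
    energy (sumPotential v) (slater (so f gf hf ho)) = 2 * qf v 0 (f 0) (gf 0) (f 0) (gf 0) +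
      2 * qf v 0 (f 1) (gf 1) (f 1) (gf 1) + qf v 0 (f 2) (gf 2) (f 2) (gf 2) := by
  rw [H574.slater_energy]
  · have e1 : ∀ a, ∑ t, ∑ k, ∫ r, ‖(so f gf hf ho).g a t k r‖ ^ 2 =
        ∫ x, ∑ k, gf (orbIdx a) k x ^ 2 := by
      intro a
      rw [integral_finsetSum _ fun k _ => ((hf _).gmem k).integrable_sq, Finset.sum_comm]
      refine Finset.sum_congr rfl fun k _ => ?_
      have : ∀ t : Fin 2, ∫ r, ‖(so f gf hf ho).g a t k r‖ ^ 2 =
          if t = spinIdx a then ∫ x, gf (orbIdx a) k x ^ 2 else 0 := by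
        intro t
        by_cases h : t = spinIdx a
        · rw [if_pos h]
          congr 1; funext r
          simp [so, h]
        · simp [so, h]
      simp only [this]
      rw [Finset.sum_ite_eq' Finset.univ (spinIdx a)]
      simp
    have e2 : ∀ a, ∑ t, ∫ r, v r * ‖(so f gf hf ho).f a t r‖ ^ 2 =
        ∫ x, v x * f (orbIdx a) x ^ 2 := by
      intro a
      have : ∀ t : Fin 2, ∫ r, v r * ‖(so f gf hf ho).f a t r‖ ^ 2 =
          if t = spinIdx a then ∫ x, v x * f (orbIdx a) x ^ 2 else 0 := by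
        intro t
        by_cases h : t = spinIdx a
        · rw [if_pos h]
          congr 1; funext r
          simp [so, h]
        · simp [so, h]
      simp only [this]
      rw [Finset.sum_ite_eq' Finset.univ (spinIdx a)]
      simp
    have key : ∀ F : Fin 5 → ℝ, ∑ l : Fin (4 + 1), F l = F 0 + F 1 + F 2 + F 3 + F 4 :=
      fun F => Fin.sum_univ_five F
    simp only [e1, e2, qf_self]
    rw [key (fun a => ∫ x, ∑ k, gf (orbIdx a) k x ^ 2), key (fun a => ∫ x, v x * f (orbIdx a) x ^ 2)]
    simp only [orbIdx, Matrix.cons_val_zero, Matrix.cons_val_one, Matrix.cons_val]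
    ring
  · intro a b t
    have h := H1.integrable_mul (hf (orbIdx a)) (hf (orbIdx b)) hv
    by_cases h1 : t = spinIdx a
    · by_cases h2 : t = spinIdx b
      · refine (h.ofReal (𝕜 := ℂ)).congr (ae_of_all _ fun r => ?_)
        have e1 : (so f gf hf ho).f a t r = ((f (orbIdx a) r : ℝ) : ℂ) := by simp [so, h1]
        have e2 : (so f gf hf ho).f b t r = ((f (orbIdx b) r : ℝ) : ℂ) := by simp [so, h2]
        show ((v r * f (orbIdx a) r * f (orbIdx b) r : ℝ) : ℂ) = (v r : ℂ) *
          (conj ((so f gf hf ho).f a t r) * (so f gf hf ho).f b t r)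
        rw [e1, e2]
        simp [mul_assoc]
      · simp [so, h2]
    · simp [so, h1]

/-! ### the ensemble -/

section ens

variable {κ : Type} [Countable κ] {b : κ → Conf 4 → ℂ} {v : R3 → ℝ} {p : ℕ → ℝ}
  {Φ : ℕ → ElectronState 5} {ρ : R3 → ℝ}

/-- member of the family of the ensemble -/
def ef (b : κ → Conf 4 → ℂ) (p : ℕ → ℝ) (Φ : ℕ → ElectronState 5) (j : ℕ × JJ 4 κ) (x : R3) : ℝ :=
  Real.sqrt (p j.1) * nf b (Φ j.1) j.2 x

/-- its gradient -/
def eg (b : κ → Conf 4 → ℂ) (p : ℕ → ℝ) (Φ : ℕ → ElectronState 5) (j : ℕ × JJ 4 κ) (k : Fin 3)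
    (x : R3) : ℝ :=
  Real.sqrt (p j.1) * ng b (Φ j.1) j.2 k x

theorem H1_const_mul {f : R3 → ℝ} {g : Fin 3 → R3 → ℝ} (h : H1 f g) (c : ℝ) :
    H1 (fun x => c * f x) (fun k x => c * g k x) :=
  ⟨h.mem.const_mul c, fun k => (h.gmem k).const_mul c, fun k => (h.wd k).const_smul c⟩

theorem ef_H1 (hb : IsONB volume b) (j : ℕ × JJ 4 κ) : H1 (ef b p Φ j) (eg b p Φ j) :=
  H1_const_mul (nf_H1 (Φ j.1) hb j.2) (Real.sqrt (p j.1))

theorem H1_int_grad {f : R3 → ℝ} {g : Fin 3 → R3 → ℝ} (h : H1 f g) :
    ∫ x, ∑ k, g k x ^ 2 = ∑ k, ∫ x, g k x ^ 2 :=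
  integral_finsetSum _ fun k _ => (h.gmem k).integrable_sq

theorem ef_sq (hp : ∀ k, 0 ≤ p k) (k : ℕ) (j : JJ 4 κ) (x : R3) :
    ef b p Φ (k, j) x ^ 2 = p k * nf b (Φ k) j x ^ 2 := by
  rw [ef, mul_pow, Real.sq_sqrt (hp k)]

theorem eg_sq (hp : ∀ k, 0 ≤ p k) (k : ℕ) (j : JJ 4 κ) (l : Fin 3) (x : R3) :
    eg b p Φ (k, j) l x ^ 2 = p k * ng b (Φ k) j l x ^ 2 := by
  rw [eg, mul_pow, Real.sq_sqrt (hp k)]

theorem exists_natFam {ρ : R3 → ℝ} (h : NonintEnsembleRepresentable 4 ρ) :
    ∃ (v : R3 → ℝ) (E : ℝ) (ι : Type) (_ : Countable ι) (f : ι → R3 → ℝ)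
      (g : ι → Fin 3 → R3 → ℝ), NatFam v ρ E f g := by
  obtain ⟨v, hv, p, Φ, hp, hps, hgs, hρ⟩ := h
  obtain ⟨κ, hκ, b, hb⟩ := exists_onb 4
  have hρ' : ∀ᵐ x : R3, HasSum (fun k => p k * density (Φ k) x) (ρ x) := hρ
  set E : ℝ := energy (sumPotential v) (Φ 0) with hE
  have hEk : ∀ k, energy (sumPotential v) (Φ k) = E := fun k =>
    le_antisymm ((hgs k).2 _ (hgs 0).1) ((hgs 0).2 _ (hgs k).1)
  set K : ℝ := 2 * (E + (4 + 1 : ℝ) * formC hv (by norm_num : (0 : ℝ) < 1 / 4)) with hK
  have hkin : ∀ k, H574.kinE (Φ k) ≤ K := fun k => by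
    have := kinE_le hv (Φ k) (hgs k).1
    rw [hEk] at this
    rw [hK]
    convert this using 4
    norm_num
  have H := fun j => ef_H1 (p := p) (Φ := Φ) hb j
  -- total mass
  have hmass : HasSum (fun j => ∫ x, ef b p Φ j x ^ 2) 5 := by
    refine hasSum_prod_nonneg (fun j => integral_nonneg fun x => by positivity)
      (g := fun k => p k * 5) (fun k => ?_) ?_
    · simp only [ef_sq hp, integral_const_mul]
      have := (nf_mass (Φ k) hb).mul_left (p k)
      rw [(hgs k).1] at this
      norm_num at this ⊢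
      exact this
    · simpa using hps.mul_right 5
  -- kinetic energies
  have hkinS : Summable (fun k => p k * (2 * H574.kinE (Φ k))) := by
    refine Summable.of_nonneg_of_le
      (fun k => mul_nonneg (hp k) (mul_nonneg zero_le_two (kinE_nonneg _))) (fun k => ?_)
      (hps.summable.mul_right (2 * K))
    exact mul_le_mul_of_nonneg_left (by linarith [hkin k]) (hp k)
  have hkinH : HasSum (fun j => ∫ x, ∑ l, eg b p Φ j l x ^ 2)
      (∑' k, p k * (2 * H574.kinE (Φ k))) := by
    refine hasSum_prod_nonneg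
      (fun j => integral_nonneg fun x => Finset.sum_nonneg fun l _ => by positivity)
      (g := fun k => p k * (2 * H574.kinE (Φ k))) (fun k => ?_) hkinS.hasSum
    simp only [eg_sq hp, ← Finset.mul_sum, integral_const_mul]
    exact (nf_kin (Φ k) hb).mul_left (p k)
  -- density
  have hdens : ∀ᵐ x, HasSum (fun j => ef b p Φ j x ^ 2) (ρ x) := by
    have h1 : ∀ᵐ x : R3, ∀ k, HasSum (fun j => nf b (Φ k) j x ^ 2) (density (Φ k) x) :=
      ae_all_iff.2 fun k => nf_dens (Φ k) hb
    filter_upwards [h1, hρ'] with x hx1 hx2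
    refine hasSum_prod_nonneg (fun j => by positivity) (fun k => ?_) hx2
    simp only [ef_sq hp]
    exact (hx1 k).mul_left (p k)
  have hdint : Integrable ρ := by
    refine (integrable_of_hasSum (F := fun j x => ef b p Φ j x ^ 2)
      (fun j => (H j).mem.integrable_sq) ?_ hdens).1
    refine hmass.summable.congr fun j => ?_
    congr 1; funext x
    rw [Real.norm_of_nonneg (by positivity)]
  -- potential energies
  have hpotS : Summable (fun j => ∫ x, ‖v x * ef b p Φ j x ^ 2‖) := by
    refine Summable.of_nonneg_of_le (fun j => integral_nonneg fun x => norm_nonneg _) (fun j => ?_)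
      (hkinH.summable.add (hmass.summable.mul_left (formC hv one_pos)))
    have h := (H1.form_bound (H j) hv one_pos).2
    have e1 : ∫ x, ‖v x * ef b p Φ j x ^ 2‖ = ∫ x, |v x| * ef b p Φ j x ^ 2 := by
      congr 1; funext x
      rw [norm_mul, Real.norm_eq_abs, Real.norm_of_nonneg (by positivity)]
    rw [e1, H1_int_grad (H j)]
    linarith
  have hpot := integrable_of_hasSum (F := fun j x => v x * ef b p Φ j x ^ 2)
    (G := fun x => v x * ρ x) (fun j => (H1.form_bound (H j) hv one_pos).1) hpotS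
    (by filter_upwards [hdens] with x hx using hx.mul_left (v x))
  -- energies
  have henS := (hkinH.mul_left (1 / 2)).add hpot.2
  have hen : HasSum (fun j => qf v 0 (ef b p Φ j) (eg b p Φ j) (ef b p Φ j) (eg b p Φ j)) E := by
    simp only [qf_self]
    have hf : ∀ k, HasSum (fun j => (1 / 2) * (∫ x, ∑ l, eg b p Φ (k, j) l x ^ 2) +
        ∫ x, v x * ef b p Φ (k, j) x ^ 2) (p k * E) := by
      intro k
      have h1 := (nf_en (Φ k) hb hv).mul_left (p k)
      rw [hEk k] at h1
      simp only [qf_self] at h1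
      simp only [eg_sq hp, ef_sq hp, ← Finset.mul_sum, integral_const_mul]
      have e : ∀ j : JJ 4 κ, ∫ x, v x * (p k * nf b (Φ k) j x ^ 2) =
          p k * ∫ x, v x * nf b (Φ k) j x ^ 2 := fun j => by
        rw [← integral_const_mul]
        congr 1; funext x; ring
      simp only [e]
      have e2 : (fun j : JJ 4 κ => 1 / 2 * (p k * ∫ x, ∑ l, ng b (Φ k) j l x ^ 2) +
          p k * ∫ x, v x * nf b (Φ k) j x ^ 2) =
          fun j => p k * (1 / 2 * (∫ x, ∑ l, ng b (Φ k) j l x ^ 2) +
            ∫ x, v x * nf b (Φ k) j x ^ 2) := by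
        funext j; ring
      rw [e2]
      exact h1
    have h2 : HasSum (fun k => p k * E) E := by simpa using hps.mul_right E
    have h3 := (henS.prod_fiberwise hf).unique h2
    rw [h3] at henS
    exact henS
  have hval : (1 / 2) * (∑' j, ∫ x, ∑ l, eg b p Φ j l x ^ 2) + ∫ x, v x * ρ x = E := by
    simp only [qf_self] at hen
    rw [hkinH.tsum_eq]
    exact henS.unique hen
  refine ⟨v, E, ℕ × JJ 4 κ, inferInstance, ef b p Φ, eg b p Φ, ?_⟩
  exact {
    memV := hv
    h1 := H
    dens := hdens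
    dens_int := hdint
    mass := hmass
    kin := hkinH.summable
    pauli := by
      intro u hu
      have hf : ∀ k (j : JJ 4 κ), (∫ x, u x * ef b p Φ (k, j) x) ^ 2 =
          p k * (∫ x, u x * nf b (Φ k) j x) ^ 2 := by
        intro k j
        have : ∫ x, u x * ef b p Φ (k, j) x = Real.sqrt (p k) * ∫ x, u x * nf b (Φ k) j x := by
          rw [← integral_const_mul]
          congr 1; funext x; rw [ef]; ring
        rw [this, mul_pow, Real.sq_sqrt (hp k)]
      have hin : ∀ k, HasSum (fun j => (∫ x, u x * ef b p Φ (k, j) x) ^ 2)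
          (p k * ∑' j, (∫ x, u x * nf b (Φ k) j x) ^ 2) := by
        intro k
        simp only [hf]
        exact ((nf_coef_sum (Φ k) hb hu).summable.hasSum).mul_left (p k)
      have hle : ∀ k, p k * ∑' j, (∫ x, u x * nf b (Φ k) j x) ^ 2 ≤ p k * (2 * ∫ x, u x ^ 2) := by
        intro k
        refine mul_le_mul_of_nonneg_left ?_ (hp k)
        have := nf_pauli hb (Φ k) hu
        rwa [(hgs k).1, mul_one] at this
      have hs : Summable (fun k => p k * ∑' j, (∫ x, u x * nf b (Φ k) j x) ^ 2) := by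
        refine Summable.of_nonneg_of_le
          (fun k => mul_nonneg (hp k) (tsum_nonneg fun j => by positivity)) hle
          (hps.summable.mul_right _)
      have hh := hasSum_prod_nonneg (f := fun j => (∫ x, u x * ef b p Φ j x) ^ 2)
        (fun j => by positivity) hin hs.hasSum
      refine ⟨hh.summable, ?_⟩
      rw [hh.tsum_eq]
      have h2 : HasSum (fun k => p k * (2 * ∫ x, u x ^ 2)) (2 * ∫ x, u x ^ 2) := by
        simpa using hps.mul_right (2 * ∫ x, u x ^ 2)
      exact hasSum_le hle hs.hasSum h2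
    en := hen
    trial := by
      intro f gf hf ho
      rw [← so_energy hv f gf hf ho, hE]
      exact (hgs 0).2 _ (H574.slater_normSq _)
    kin_le := by
      intro Ψ h1 hd
      have h2 := (hgs 0).2 Ψ h1
      rw [← hE, energy_sumPotential hv] at h2
      have h3 : ∫ x, v x * density Ψ x = ∫ x, v x * ρ x := by
        refine integral_congr_ae ?_
        filter_upwards [hd] with x hx
        rw [hx]
      rw [h3] at h2
      linarith }

end ens

end

end Vale.Agent.P363.H700
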