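import Vale.Agent.P363.R.Top.Defs
import Vale.Agent.P363.H700.Form1

/-! Explicit one-body facts about `Top.orb`: orthonormality. -/

namespace Vale.Agent.P363.H700

open MeasureTheory Filter Topology Set
open Vale.Agent.P363.Stmt Vale.Agent.P363.R.Sob Vale.Agent.P363.R.Top
open scoped ContDiff ENNReal NNReal

noncomputable section

set_option linter.unusedSectionVars false

/-! ### radial integrals -/

theorem integral_radial (f : ℝ → ℝ) :
    ∫ x : R3, f ‖x‖ = 4 * Real.pi * ∫ r in Ioi (0 : ℝ), r ^ 2 * f r := by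
  have h := integral_fun_norm_addHaar (volume : Measure R3) f
  rw [h]
  have hv : (volume : Measure R3).real (Metric.ball 0 1) = Real.pi * 4 / 3 := by
    rw [Measure.real, EuclideanSpace.volume_ball_fin_three]
    simp
    positivity
  rw [hv]
  simp only [finrank_euclideanSpace, Fintype.card_fin, nsmul_eq_mul, smul_eq_mul]
  norm_num
  ring

theorem integrableOn_pow_exp (n : ℕ) {a : ℝ} (ha : 0 < a) :
    IntegrableOn (fun r : ℝ => r ^ n * Real.exp (-(a * r))) (Ioi 0) := by
  have := integrableOn_rpow_mul_exp_neg_mul_rpow (p := 1) (s := n) (b := a)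
    (by have : (0 : ℝ) ≤ n := Nat.cast_nonneg n
        linarith) one_pos ha
  simpa using this

theorem integral_pow_exp (n : ℕ) {a : ℝ} (ha : 0 < a) :
    ∫ r in Ioi (0 : ℝ), r ^ n * Real.exp (-(a * r)) = (n.factorial : ℝ) / a ^ (n + 1) := by
  have h := Real.integral_rpow_mul_exp_neg_mul_Ioi (a := (n : ℝ) + 1) (r := a) (by positivity) ha
  simp only [add_sub_cancel_right, Real.rpow_natCast] at h
  rw [h, Real.Gamma_nat_eq_factorial, ← Nat.cast_succ, Real.rpow_natCast, one_div, inv_pow,
    Nat.succ_eq_add_one]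
  field_simp

theorem integrable_radial {f : ℝ → ℝ} (h : IntegrableOn (fun r => r ^ 2 * f r) (Ioi 0)) :
    Integrable (fun x : R3 => f ‖x‖) := by
  rw [integrable_fun_norm_addHaar (volume : Measure R3)]
  simpa using h

theorem integrable_pow_exp (n : ℕ) {a : ℝ} (ha : 0 < a) :
    Integrable (fun x : R3 => ‖x‖ ^ n * Real.exp (-(a * ‖x‖))) := by
  refine integrable_radial (f := fun r => r ^ n * Real.exp (-(a * r))) ?_
  refine (integrableOn_pow_exp (n + 2) ha).congr_fun (fun r _ => ?_) measurableSet_Ioi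
  ring

theorem integral_norm_pow_exp (n : ℕ) {a : ℝ} (ha : 0 < a) :
    ∫ x : R3, ‖x‖ ^ n * Real.exp (-(a * ‖x‖)) =
      4 * Real.pi * ((n + 2).factorial / a ^ (n + 3)) := by
  rw [integral_radial (fun r => r ^ n * Real.exp (-(a * r))), ← integral_pow_exp (n + 2) ha]
  congr 2
  funext r
  ring

/-! ### coordinate symmetries -/

/-- exchange of two coordinates. -/
def swapI (i j : Fin 3) : R3 ≃ₗᵢ[ℝ] R3 :=
  LinearIsometryEquiv.piLpCongrLeft 2 ℝ ℝ (Equiv.swap i j)

theorem swapI_apply (i j k : Fin 3) (x : R3) : swapI i j x k = x (Equiv.swap i j k) := by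
  simp [swapI, LinearIsometryEquiv.piLpCongrLeft_apply, Equiv.piCongrLeft'_apply]

/-- reflection of one coordinate. -/
def flipI (i : Fin 3) : R3 ≃ₗᵢ[ℝ] R3 :=
  LinearIsometryEquiv.piLpCongrRight 2 (fun k : Fin 3 =>
    if k = i then LinearIsometryEquiv.neg ℝ else LinearIsometryEquiv.refl ℝ ℝ)

theorem flipI_apply (i k : Fin 3) (x : R3) : flipI i x k = if k = i then - x k else x k := by
  simp only [flipI, LinearIsometryEquiv.piLpCongrRight_apply]
  split_ifs <;> simp

theorem integral_comp_isometry (A : R3 ≃ₗᵢ[ℝ] R3) (f : R3 → ℝ) : ∫ x, f (A x) = ∫ x, f x :=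
  A.measurePreserving.integral_comp A.toHomeomorph.measurableEmbedding f

theorem integral_coord_sq (i : Fin 3) (h : ℝ → ℝ)
    (hi : Integrable (fun x : R3 => ‖x‖ ^ 2 * h ‖x‖)) (hm : Measurable h) :
    Integrable (fun x : R3 => x i ^ 2 * h ‖x‖) ∧
    ∫ x : R3, x i ^ 2 * h ‖x‖ = (1 / 3) * ∫ x : R3, ‖x‖ ^ 2 * h ‖x‖ := by
  have hI : ∀ j : Fin 3, Integrable (fun x : R3 => x j ^ 2 * h ‖x‖) := fun j => by
    refine hi.mono ?_ (Eventually.of_forall fun x => ?_)
    · exact (((EuclideanSpace.proj (𝕜 := ℝ) j : R3 →L[ℝ] ℝ).continuous.measurable.pow_const 2).mul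
        (hm.comp measurable_norm)).aestronglyMeasurable
    · rw [norm_mul, norm_mul]
      refine mul_le_mul_of_nonneg_right ?_ (norm_nonneg _)
      have := PiLp.norm_apply_le x j
      rw [norm_pow, norm_pow, norm_norm]
      gcongr
  refine ⟨hI i, ?_⟩
  have hsw : ∀ j : Fin 3, ∫ x : R3, x j ^ 2 * h ‖x‖ = ∫ x : R3, x i ^ 2 * h ‖x‖ := by
    intro j
    rw [← integral_comp_isometry (swapI i j)]
    refine integral_congr_ae (Eventually.of_forall fun x => ?_)
    simp only [swapI_apply, LinearIsometryEquiv.norm_map, Equiv.swap_apply_right]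
  have hsum : ∫ x : R3, ‖x‖ ^ 2 * h ‖x‖ = ∑ j : Fin 3, ∫ x : R3, x j ^ 2 * h ‖x‖ := by
    rw [← integral_finsetSum _ fun j _ => hI j]
    refine integral_congr_ae (Eventually.of_forall fun x => ?_)
    simp only
    rw [EuclideanSpace.norm_sq_eq, Finset.sum_mul]
    simp
  rw [hsum]
  simp only [hsw]
  simp

theorem integral_odd (i : Fin 3) (f : R3 → ℝ) (hf : ∀ x, f (flipI i x) = - f x) :
    ∫ x, f x = 0 := by
  have h1 := integral_comp_isometry (flipI i) f
  simp only [hf, integral_neg] at h1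
  linarith

/-! ### orthonormality -/

theorem measurable_expa (a : ℝ) : Measurable fun r : ℝ => Real.exp (-(a * r)) := by fun_prop

/-- squares of coordinates times exponentials -/
theorem coord_sq_exp (i : Fin 3) {a : ℝ} (ha : 0 < a) :
    Integrable (fun x : R3 => x i ^ 2 * Real.exp (-(a * ‖x‖))) ∧
    ∫ x : R3, x i ^ 2 * Real.exp (-(a * ‖x‖)) = 32 * Real.pi / a ^ 5 := by
  have h := integral_coord_sq i (fun r => Real.exp (-(a * r))) (integrable_pow_exp 2 ha)
    (measurable_expa a)
  refine ⟨h.1, h.2.trans ?_⟩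
  rw [integral_norm_pow_exp 2 ha]
  norm_num [Nat.factorial]
  ring

theorem orb_succ (i : Fin 3) (x : R3) :
    orb (i.succ.succ) x = x i * Real.exp (-‖x‖ / 2) / (4 * Real.sqrt (2 * Real.pi)) := by
  fin_cases i <;> rfl

theorem sqrt2pi_sq : Real.sqrt (2 * Real.pi) * Real.sqrt (2 * Real.pi) = 2 * Real.pi :=
  Real.mul_self_sqrt (by positivity)

theorem exp_half_mul (t : ℝ) : Real.exp (-t / 2) * Real.exp (-t / 2) = Real.exp (-(1 * t)) := by
  rw [← Real.exp_add]; congr 1; ring

theorem orb00 : ∫ x : R3, orb 0 x * orb 0 x = 1 := by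
  have e : ∀ x : R3, orb 0 x * orb 0 x = (1 / Real.pi) * (‖x‖ ^ 0 * Real.exp (-(2 * ‖x‖))) := by
    intro x
    simp only [orb]
    have h1 : Real.exp (-‖x‖) * Real.exp (-‖x‖) = Real.exp (-(2 * ‖x‖)) := by
      rw [← Real.exp_add]; congr 1; ring
    have h2 : Real.sqrt Real.pi * Real.sqrt Real.pi = Real.pi := Real.mul_self_sqrt Real.pi_pos.le
    rw [div_mul_div_comm, h1, h2]
    ring
  simp only [e]
  rw [integral_const_mul, integral_norm_pow_exp 0 two_pos]
  norm_num [Nat.factorial]
  field_simp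

theorem orb01 : ∫ x : R3, orb 0 x * orb 1 x = 0 := by
  have e : ∀ x : R3, orb 0 x * orb 1 x = (1 / (Real.sqrt Real.pi * (4 * Real.sqrt (2 * Real.pi)))) *
      (2 * (‖x‖ ^ 0 * Real.exp (-(3 / 2 * ‖x‖))) - ‖x‖ ^ 1 * Real.exp (-(3 / 2 * ‖x‖))) := by
    intro x
    simp only [orb]
    have h1 : Real.exp (-‖x‖) * Real.exp (-‖x‖ / 2) = Real.exp (-(3 / 2 * ‖x‖)) := by
      rw [← Real.exp_add]; congr 1; ring
    rw [← h1]
    ring
  simp only [e]
  have ha : (0 : ℝ) < 3 / 2 := by norm_num
  rw [integral_const_mul, integral_sub ((integrable_pow_exp 0 ha).const_mul 2)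
    (integrable_pow_exp 1 ha), integral_const_mul, integral_norm_pow_exp 0 ha,
    integral_norm_pow_exp 1 ha]
  norm_num [Nat.factorial]
  right; ring

theorem orb11 : ∫ x : R3, orb 1 x * orb 1 x = 1 := by
  have e : ∀ x : R3, orb 1 x * orb 1 x = (1 / (32 * Real.pi)) *
      (4 * (‖x‖ ^ 0 * Real.exp (-(1 * ‖x‖))) - 4 * (‖x‖ ^ 1 * Real.exp (-(1 * ‖x‖)))
        + ‖x‖ ^ 2 * Real.exp (-(1 * ‖x‖))) := by
    intro x
    simp only [orb]
    rw [div_mul_div_comm, show (4 * Real.sqrt (2 * Real.pi)) * (4 * Real.sqrt (2 * Real.pi))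
      = 16 * (Real.sqrt (2 * Real.pi) * Real.sqrt (2 * Real.pi)) by ring, sqrt2pi_sq,
      ← exp_half_mul]
    ring
  simp only [e]
  have i0 := (integrable_pow_exp 0 one_pos).const_mul 4
  have i1 := (integrable_pow_exp 1 one_pos).const_mul 4
  have i01 : Integrable (fun x : R3 => 4 * (‖x‖ ^ 0 * Real.exp (-(1 * ‖x‖))) -
      4 * (‖x‖ ^ 1 * Real.exp (-(1 * ‖x‖)))) := i0.sub i1
  rw [integral_const_mul, integral_add i01 (integrable_pow_exp 2 one_pos),
    integral_sub i0 i1, integral_const_mul, integral_const_mul, integral_norm_pow_exp 0 one_pos,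
    integral_norm_pow_exp 1 one_pos, integral_norm_pow_exp 2 one_pos]
  norm_num [Nat.factorial]
  field_simp
  norm_num

theorem orbpp (i : Fin 3) : ∫ x : R3, orb i.succ.succ x * orb i.succ.succ x = 1 := by
  have e : ∀ x : R3, orb i.succ.succ x * orb i.succ.succ x = (1 / (32 * Real.pi)) *
      (x i ^ 2 * Real.exp (-(1 * ‖x‖))) := by
    intro x
    rw [orb_succ, div_mul_div_comm,
      show (4 * Real.sqrt (2 * Real.pi)) * (4 * Real.sqrt (2 * Real.pi))
      = 16 * (Real.sqrt (2 * Real.pi) * Real.sqrt (2 * Real.pi)) by ring, sqrt2pi_sq,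
      ← exp_half_mul]
    ring
  simp only [e]
  rw [integral_const_mul, (coord_sq_exp i one_pos).2]
  field_simp

theorem orb_flip_p (i : Fin 3) (x : R3) :
    orb i.succ.succ (flipI i x) = - orb i.succ.succ x := by
  rw [orb_succ, orb_succ, flipI_apply, if_pos rfl, LinearIsometryEquiv.norm_map]; ring

theorem orb_flip_p' {i j : Fin 3} (h : j ≠ i) (x : R3) :
    orb j.succ.succ (flipI i x) = orb j.succ.succ x := by
  rw [orb_succ, orb_succ, flipI_apply, if_neg h, LinearIsometryEquiv.norm_map]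

theorem orb_flip_0 (i : Fin 3) (x : R3) : orb 0 (flipI i x) = orb 0 x := by
  simp only [orb, LinearIsometryEquiv.norm_map]

theorem orb_flip_1 (i : Fin 3) (x : R3) : orb 1 (flipI i x) = orb 1 x := by
  simp only [orb, LinearIsometryEquiv.norm_map]

/-- orthonormality of the five orbitals. -/
theorem orb_orth (i j : Fin 5) : ∫ x : R3, orb i x * orb j x = if i = j then 1 else 0 := by
  refine Fin.cases ?_ (fun i => ?_) i
  · refine Fin.cases ?_ (fun j => ?_) j
    · simpa using orb00
    · refine Fin.cases ?_ (fun j => ?_) j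
      · simpa using orb01
      · rw [if_neg (Fin.succ_ne_zero _).symm]
        refine integral_odd j _ fun x => ?_
        rw [orb_flip_0, orb_flip_p]; ring
  · refine Fin.cases ?_ (fun j => ?_) j
    · rw [if_neg (Fin.succ_ne_zero _)]
      refine Fin.cases ?_ (fun i => ?_) i
      · have := orb01
        simp only [mul_comm (orb 0 _)] at this
        exact this
      · refine integral_odd i _ fun x => ?_
        rw [orb_flip_0, orb_flip_p]; ring
    · refine Fin.cases ?_ (fun i => ?_) i
      · refine Fin.cases ?_ (fun j => ?_) j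
        · simpa using orb11
        · rw [if_neg (fun h => (Fin.succ_ne_zero j) (Fin.succ_injective _ h).symm)]
          refine integral_odd j _ fun x => ?_
          rw [show (Fin.succ 0 : Fin 5) = 1 from rfl, orb_flip_1, orb_flip_p]; ring
      · refine Fin.cases ?_ (fun j => ?_) j
        · rw [if_neg (fun h => (Fin.succ_ne_zero i) (Fin.succ_injective _ h))]
          refine integral_odd i _ fun x => ?_
          rw [show (Fin.succ 0 : Fin 5) = 1 from rfl, orb_flip_1, orb_flip_p]; ring
        · by_cases hij : i = j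
          · subst hij
            rw [if_pos rfl]; exact orbpp i
          · rw [if_neg (by simpa using hij)]
            refine integral_odd i _ fun x => ?_
            rw [orb_flip_p, orb_flip_p' (Ne.symm hij)]; ring

end

end Vale.Agent.P363.H700
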