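import Vale.Agent.P363.H700.Orb
import Vale.Agent.P363.H849.Kid

/-! Gradients and weak eigen-equation of `Top.orb`. -/

namespace Vale.Agent.P363.H700

open MeasureTheory Filter Topology Set
open Vale.Agent.P363.Stmt Vale.Agent.P363.R.Sob Vale.Agent.P363.R.Top
open Vale.Agent.P363.H849 (Poly ev G IsProf hA hA1 hA2 hB hB1 hB2 isProfA isProfB prof_ibp reg_ibp
  lapG lap eul ev_add ev_mul ev_X ev_one ev_zero ev_C G_contDiffAt G_fderiv Bd0 Bd1)
open Vale.Agent.P363.R.KS (H1)
open scoped ContDiff ENNReal NNReal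

noncomputable section

set_option linter.unusedSectionVars false

section prof

variable {h h1 h2 : ℝ → ℝ}

/-- the gradient of `G p h`. -/
def gG (p : Poly) (h h1 : ℝ → ℝ) (k : Fin 3) (x : R3) : ℝ :=
  G (MvPolynomial.pderiv k p) h x + G (MvPolynomial.X k * p) h1 x

theorem gG_bd (H : IsProf h h1 h2) (p : Poly) (k : Fin 3) : Bd0 (gG p h h1 k) :=
  (H.bd0 _).add (H.bd1_X _ k)

theorem G_isWD (H : IsProf h h1 h2) (p : Poly) (k : Fin 3) :
    IsWD volume (H382.e3 k) (G p h) (gG p h h1 k) := by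
  intro φ hφ
  have hc : ContDiff ℝ 1 φ := hφ.contDiff.of_le (by simp)
  have m1 : MemLp φ 2 (volume : Measure R3) :=
    hφ.continuous.memLp_of_hasCompactSupport hφ.hasCompactSupport
  have m2 : MemLp (fun x => fderiv ℝ φ x (H382.e3 k)) 2 (volume : Measure R3) :=
    (hφ.fderiv _).continuous.memLp_of_hasCompactSupport (hφ.fderiv _).hasCompactSupport
  have key := reg_ibp m1 m2 (isWD_of_contDiff hc)
    (u := G p h) (u' := gG p h h1 k)
    (fun x hx => G_contDiffAt _ hx (H.sm _ (norm_pos_iff.2 hx)))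
    (fun x hx => G_fderiv _ hx (H.d _ (norm_pos_iff.2 hx)) k)
    (H.bd0 p).div_norm.memLp (H.bd0 p).memLp (gG_bd H p k).memLp
  simp only [smul_eq_mul]
  have e1 : ∫ x, φ x * gG p h h1 k x = ∫ x, gG p h h1 k x * φ x := by
    congr 1; funext x; ring
  have e2 : ∫ x, fderiv ℝ φ x (H382.e3 k) * G p h x = ∫ x, G p h x * fderiv ℝ φ x (H382.e3 k) := by
    congr 1; funext x; ring
  rw [e1, e2, key, neg_neg]

theorem G_H1 (H : IsProf h h1 h2) (p : Poly) : H1 (G p h) (gG p h h1) :=
  ⟨(H.bd0 p).memLp, fun k => (gG_bd H p k).memLp, fun k => G_isWD H p k⟩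

end prof

/-- `u ∈ H¹` with gradient `gu` and distributional Laplacian `L`, tested with `H¹` functions. -/
structure HasLap (u : R3 → ℝ) (gu : Fin 3 → R3 → ℝ) (L : R3 → ℝ) : Prop where
  h1 : H1 u gu
  memL : MemLp L 2 (volume : Measure R3)
  memD : MemLp (fun x => u x / ‖x‖) 2 (volume : Measure R3)
  ibp : ∀ (f : R3 → ℝ) (g : Fin 3 → R3 → ℝ), H1 f g →
    ∑ k, ∫ x, gu k x * g k x = - ∫ x, L x * f x

theorem HasLap.lin {u u' : R3 → ℝ} {gu gu' : Fin 3 → R3 → ℝ} {L L' : R3 → ℝ}
    (h : HasLap u gu L) (h' : HasLap u' gu' L') (a b : ℝ) :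
    HasLap (fun x => a * u x + b * u' x) (fun k x => a * gu k x + b * gu' k x)
      (fun x => a * L x + b * L' x) := by
  refine ⟨⟨(h.h1.mem.const_mul a).add (h'.h1.mem.const_mul b),
    fun k => ((h.h1.gmem k).const_mul a).add ((h'.h1.gmem k).const_mul b), fun k => ?_⟩,
    (h.memL.const_mul a).add (h'.memL.const_mul b), ?_, fun f g hfg => ?_⟩
  · have l := fun {w : R3 → ℝ} (hw : MemLp w 2 (volume : Measure R3)) =>
      hw.locallyIntegrable (by norm_num : (1 : ℝ≥0∞) ≤ 2)
    have := ((h.h1.wd k).const_smul a).add ((h'.h1.wd k).const_smul b)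
      (l (h.h1.mem.const_mul a)) (l ((h.h1.gmem k).const_mul a))
      (l (h'.h1.mem.const_mul b)) (l ((h'.h1.gmem k).const_mul b))
    exact this
  · have := (h.memD.const_mul a).add (h'.memD.const_mul b)
    refine this.congr_norm (this.1.congr (ae_of_all _ fun x => ?_)) (ae_of_all _ fun x => ?_)
    · simp only [Pi.add_apply]; ring
    · simp only [Pi.add_apply]; congr 1; ring
  · have e1 : ∀ k, ∫ x, (a * gu k x + b * gu' k x) * g k x =
        a * (∫ x, gu k x * g k x) + b * ∫ x, gu' k x * g k x := by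
      intro k
      have i1 : Integrable (fun x => gu k x * g k x) := (h.h1.gmem k).integrable_mul (hfg.gmem k)
      have i2 : Integrable (fun x => gu' k x * g k x) := (h'.h1.gmem k).integrable_mul (hfg.gmem k)
      rw [← integral_const_mul, ← integral_const_mul, ← integral_add (i1.const_mul a)
        (i2.const_mul b)]
      congr 1; funext x; ring
    have e2 : ∫ x, (a * L x + b * L' x) * f x =
        a * (∫ x, L x * f x) + b * ∫ x, L' x * f x := by
      have i1 : Integrable (fun x => L x * f x) := h.memL.integrable_mul hfg.mem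
      have i2 : Integrable (fun x => L' x * f x) := h'.memL.integrable_mul hfg.mem
      rw [← integral_const_mul, ← integral_const_mul, ← integral_add (i1.const_mul a)
        (i2.const_mul b)]
      congr 1; funext x; ring
    simp only [e1]
    rw [e2, Finset.sum_add_distrib, ← Finset.mul_sum, ← Finset.mul_sum, h.ibp f g hfg,
      h'.ibp f g hfg]
    ring

theorem HasLap.congr_lap {u : R3 → ℝ} {gu : Fin 3 → R3 → ℝ} {L L' : R3 → ℝ}
    (h : HasLap u gu L) (hL : L =ᵐ[volume] L') : HasLap u gu L' := by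
  refine ⟨h.h1, h.memL.ae_eq hL, h.memD, fun f g hfg => ?_⟩
  rw [h.ibp f g hfg]
  congr 1
  refine integral_congr_ae ?_
  filter_upwards [hL] with x hx
  rw [hx]

theorem G_hasLap {h h1 h2 : ℝ → ℝ} (H : IsProf h h1 h2) (p : Poly) :
    HasLap (G p h) (gG p h h1) (lapG p h h1 h2) := by
  refine ⟨G_H1 H p, ?_, (H.bd0 p).div_norm.memLp, fun f g hfg => ?_⟩
  · have hbd : ∀ k, Bd1 (fun x => (G (MvPolynomial.pderiv k (MvPolynomial.pderiv k p)) h x
      + G (MvPolynomial.X k * MvPolynomial.pderiv k p) h1 x)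
    + (G (MvPolynomial.pderiv k (MvPolynomial.X k * p)) h1 x
      + G (MvPolynomial.X k * (MvPolynomial.X k * p)) h2 x)) := fun k =>
      ((H.bd0 _).add (H.bd1_X _ k)).bd1.add ((H.bd1_h1 _).add (H.bd1_h2 p k))
    have hsum : lapG p h h1 h2 = fun x => ∑ k : Fin 3,
      ((G (MvPolynomial.pderiv k (MvPolynomial.pderiv k p)) h x
      + G (MvPolynomial.X k * MvPolynomial.pderiv k p) h1 x)
    + (G (MvPolynomial.pderiv k (MvPolynomial.X k * p)) h1 x
      + G (MvPolynomial.X k * (MvPolynomial.X k * p)) h2 x)) := by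
      funext x
      simp only [G, lapG, lap, eul, H849.ev_sum, ev_mul, ev_X, ev_add, Derivation.leibniz,
        MvPolynomial.pderiv_X_self, smul_eq_mul, mul_one]
      rw [H849.norm_sq_R3]
      simp only [Fin.sum_univ_three]
      ring
    rw [hsum]
    exact memLp_finsetSum _ fun k _ => (hbd k).memLp
  · exact prof_ibp hfg.mem hfg.gmem hfg.wd H p

theorem half_pos' : (0 : ℝ) < 1 / 2 := by norm_num

/-- gradients of the orbitals. -/
def gorb : Fin 5 → Fin 3 → R3 → ℝ
  | 0 => fun k x => 1 / Real.sqrt Real.pi * gG 1 (hA 1) (hA1 1) k x + 0 * gG 1 (hA 1) (hA1 1) k x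
  | 1 => fun k x => 2 / (4 * Real.sqrt (2 * Real.pi)) * gG 1 (hA (1 / 2)) (hA1 (1 / 2)) k x +
      -1 / (4 * Real.sqrt (2 * Real.pi)) * gG 1 (hB (1 / 2)) (hB1 (1 / 2)) k x
  | 2 => fun k x => 1 / (4 * Real.sqrt (2 * Real.pi)) *
      gG (MvPolynomial.X 0) (hA (1 / 2)) (hA1 (1 / 2)) k x + 0 *
      gG (MvPolynomial.X 0) (hA (1 / 2)) (hA1 (1 / 2)) k x
  | 3 => fun k x => 1 / (4 * Real.sqrt (2 * Real.pi)) *
      gG (MvPolynomial.X 1) (hA (1 / 2)) (hA1 (1 / 2)) k x + 0 *
      gG (MvPolynomial.X 1) (hA (1 / 2)) (hA1 (1 / 2)) k x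
  | 4 => fun k x => 1 / (4 * Real.sqrt (2 * Real.pi)) *
      gG (MvPolynomial.X 2) (hA (1 / 2)) (hA1 (1 / 2)) k x + 0 *
      gG (MvPolynomial.X 2) (hA (1 / 2)) (hA1 (1 / 2)) k x

theorem ne_zero_ae : ∀ᵐ x : R3, x ≠ 0 := by
  rw [ae_iff]; simp

theorem lap_one : lap 1 = 0 := by simp [lap]
theorem eul_one : eul 1 = 0 := by simp [eul]
theorem lap_X (i : Fin 3) : lap (MvPolynomial.X i) = 0 := by
  simp only [lap]
  refine Finset.sum_eq_zero fun k _ => ?_
  by_cases h : i = k
  · subst h; simp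
  · rw [MvPolynomial.pderiv_X_of_ne h]; simp
theorem eul_X (i : Fin 3) : eul (MvPolynomial.X i) = MvPolynomial.X i := by
  simp only [eul]
  rw [Finset.sum_eq_single i]
  · simp
  · intro k _ hk
    rw [MvPolynomial.pderiv_X_of_ne hk.symm]; simp
  · simp

theorem orb_hasLap_p (i : Fin 3) : HasLap
    (fun x => 1 / (4 * Real.sqrt (2 * Real.pi)) * G (MvPolynomial.X i) (hA (1 / 2)) x + 0 *
      G (MvPolynomial.X i) (hA (1 / 2)) x)
    (fun k x => 1 / (4 * Real.sqrt (2 * Real.pi)) *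
      gG (MvPolynomial.X i) (hA (1 / 2)) (hA1 (1 / 2)) k x + 0 *
      gG (MvPolynomial.X i) (hA (1 / 2)) (hA1 (1 / 2)) k x)
    (fun x => (1 / 4 - 2 / ‖x‖) * orb i.succ.succ x) := by
  refine ((G_hasLap (isProfA half_pos') (MvPolynomial.X i)).lin
    (G_hasLap (isProfA half_pos') (MvPolynomial.X i)) _ _).congr_lap ?_
  filter_upwards [ne_zero_ae] with x hx
  have hx0 : ‖x‖ ≠ 0 := norm_ne_zero_iff.2 hx
  rw [orb_succ]
  simp only [lapG, lap_X, eul_X, ev_zero, ev_X, hA, hA1, hA2]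
  rw [show -‖x‖ / 2 = -(1 / 2) * ‖x‖ by ring]
  field_simp
  ring

/-- `Δ orb i = (κ² - 2/r) orb i`, `κ² = -2 orbE i`. -/
theorem orb_hasLap (i : Fin 5) :
    HasLap (orb i) (gorb i) (fun x => (-2 * orbE i - 2 / ‖x‖) * orb i x) := by
  have hp : ∀ i : Fin 3, (fun x : R3 => 1 / (4 * Real.sqrt (2 * Real.pi)) *
      G (MvPolynomial.X i) (hA (1 / 2)) x + 0 * G (MvPolynomial.X i) (hA (1 / 2)) x)
      = orb i.succ.succ := by
    intro i
    funext x
    rw [orb_succ]
    simp only [G, ev_X, hA]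
    rw [show -‖x‖ / 2 = -(1 / 2) * ‖x‖ by ring]
    ring
  have hE : ∀ i : Fin 3, (-2 * orbE i.succ.succ : ℝ) = 1 / 4 := by
    intro i
    rw [orbE, if_neg (Fin.succ_ne_zero _)]; norm_num
  match i with
  | 0 =>
    have e : orb 0 = fun x => 1 / Real.sqrt Real.pi * G 1 (hA 1) x + 0 * G 1 (hA 1) x := by
      funext x
      simp only [orb, G, ev_one, hA]
      rw [show -1 * ‖x‖ = -‖x‖ by ring]
      ring
    refine ((G_hasLap (isProfA one_pos) 1).lin (G_hasLap (isProfA one_pos) 1)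
      (1 / Real.sqrt Real.pi) 0).congr_lap ?_ |> fun h => by rw [e]; exact h
    filter_upwards [ne_zero_ae] with x hx
    have hx0 : ‖x‖ ≠ 0 := norm_ne_zero_iff.2 hx
    simp only [lapG, lap_one, eul_one, ev_zero, ev_one, hA, hA1, hA2, G, orbE, if_true]
    field_simp
    ring
  | 1 =>
    have e : orb 1 = fun x => 2 / (4 * Real.sqrt (2 * Real.pi)) * G 1 (hA (1 / 2)) x +
        -1 / (4 * Real.sqrt (2 * Real.pi)) * G 1 (hB (1 / 2)) x := by
      funext x
      simp only [orb, G, ev_one, hA, hB]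
      rw [show -‖x‖ / 2 = -(1 / 2) * ‖x‖ by ring]
      ring
    refine ((G_hasLap (isProfA half_pos') 1).lin (G_hasLap (isProfB half_pos') 1)
      (2 / (4 * Real.sqrt (2 * Real.pi))) (-1 / (4 * Real.sqrt (2 * Real.pi)))).congr_lap ?_
      |> fun h => by rw [e]; exact h
    filter_upwards [ne_zero_ae] with x hx
    have hx0 : ‖x‖ ≠ 0 := norm_ne_zero_iff.2 hx
    simp only [lapG, lap_one, eul_one, ev_zero, ev_one, hA, hA1, hA2, hB, hB1, hB2, G, orbE,
      Fin.reduceEq, if_false]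
    field_simp
    ring
  | 2 =>
    have := orb_hasLap_p 0
    rw [hp] at this
    simp only [← hE 0] at this
    exact this
  | 3 =>
    have := orb_hasLap_p 1
    rw [hp] at this
    simp only [← hE 1] at this
    exact this
  | 4 =>
    have := orb_hasLap_p 2
    rw [hp] at this
    simp only [← hE 2] at this
    exact this

theorem orb_H1 (i : Fin 5) : H1 (orb i) (gorb i) := (orb_hasLap i).h1

theorem orb_memLp (i : Fin 5) : MemLp (orb i) 2 (volume : Measure R3) := (orb_H1 i).mem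

theorem gorb_memLp (i : Fin 5) (k : Fin 3) : MemLp (gorb i k) 2 (volume : Measure R3) :=
  (orb_H1 i).gmem k

theorem orb_div_memLp (i : Fin 5) : MemLp (fun x => orb i x / ‖x‖) 2 (volume : Measure R3) :=
  (orb_hasLap i).memD

/-- weak eigen-equation, real functions. -/
theorem orb_eig (i : Fin 5) {f : R3 → ℝ} {g : Fin 3 → R3 → ℝ} (h : H1 f g) :
    (1 / 2) * (∑ k, ∫ x, gorb i k x * g k x) - ∫ x, orb i x / ‖x‖ * f x =
      orbE i * ∫ x, orb i x * f x := by
  have h1 := (orb_hasLap i).ibp f g h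
  have i1 : Integrable (fun x => orb i x * f x) := (orb_memLp i).integrable_mul h.mem
  have i2 : Integrable (fun x => orb i x / ‖x‖ * f x) := (orb_div_memLp i).integrable_mul h.mem
  have e : ∫ x, (-2 * orbE i - 2 / ‖x‖) * orb i x * f x =
      (-2 * orbE i) * (∫ x, orb i x * f x) - 2 * ∫ x, orb i x / ‖x‖ * f x := by
    rw [← integral_const_mul, ← integral_const_mul, ← integral_sub (i1.const_mul _)
      (i2.const_mul _)]
    congr 1; funext x; ring
  rw [h1, e]
  ring

/-- real part of a weak derivative -/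
theorem isWD_re {E : Type*} [NormedAddCommGroup E] [NormedSpace ℝ E] [FiniteDimensional ℝ E]
    [MeasurableSpace E] [BorelSpace E] {μ : Measure E} [μ.IsAddHaarMeasure] {v : E}
    {f g : E → ℂ} (h : IsWD μ v f g) (hf : LocallyIntegrable f μ) (hg : LocallyIntegrable g μ) :
    IsWD μ v (fun x => (f x).re) (fun x => (g x).re) := by
  intro φ hφ
  have h1 := congrArg Complex.re (h φ hφ)
  have i1 := (hφ.fderiv v).integrable_smul hf
  have i2 := hφ.integrable_smul hg
  have e1 := Complex.reCLM.integral_comp_comm i1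
  have e2 := Complex.reCLM.integral_comp_comm i2
  simp only [Complex.reCLM_apply, Complex.real_smul, Complex.re_ofReal_mul] at e1 e2
  simp only [Complex.real_smul, Complex.neg_re] at h1
  simp only [smul_eq_mul]
  rw [e1, e2]
  exact h1

theorem isWD_im {E : Type*} [NormedAddCommGroup E] [NormedSpace ℝ E] [FiniteDimensional ℝ E]
    [MeasurableSpace E] [BorelSpace E] {μ : Measure E} [μ.IsAddHaarMeasure] {v : E}
    {f g : E → ℂ} (h : IsWD μ v f g) (hf : LocallyIntegrable f μ) (hg : LocallyIntegrable g μ) :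
    IsWD μ v (fun x => (f x).im) (fun x => (g x).im) := by
  intro φ hφ
  have h1 := congrArg Complex.im (h φ hφ)
  have i1 := (hφ.fderiv v).integrable_smul hf
  have i2 := hφ.integrable_smul hg
  have e1 := Complex.imCLM.integral_comp_comm i1
  have e2 := Complex.imCLM.integral_comp_comm i2
  simp only [Complex.imCLM_apply, Complex.real_smul, Complex.im_ofReal_mul] at e1 e2
  simp only [Complex.real_smul, Complex.neg_im] at h1
  simp only [smul_eq_mul]
  rw [e1, e2]
  exact h1

/-- integral of a real function times a complex one. -/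
theorem integral_ofReal_mul_eq {α : Type*} [MeasurableSpace α] {μ : Measure α} {u : α → ℝ}
    {f : α → ℂ} (hu : MemLp u 2 μ) (hf : MemLp f 2 μ) :
    ∫ x, (u x : ℂ) * f x ∂μ =
      ((∫ x, u x * (f x).re ∂μ : ℝ) : ℂ) + ((∫ x, u x * (f x).im ∂μ : ℝ) : ℂ) * Complex.I := by
  have hi : Integrable (fun x => (u x : ℂ) * f x) μ := by
    have hu' : MemLp (fun x => (u x : ℂ)) 2 μ := hu.ofReal
    exact hu'.integrable_mul hf
  have e1 := Complex.reCLM.integral_comp_comm hi
  have e2 := Complex.imCLM.integral_comp_comm hi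
  simp only [Complex.reCLM_apply, Complex.imCLM_apply, Complex.re_ofReal_mul,
    Complex.im_ofReal_mul] at e1 e2
  rw [e1, e2]
  exact (Complex.re_add_im _).symm

/-- weak eigen-equation, complex functions. -/
theorem orb_eigC (i : Fin 5) {f : R3 → ℂ} {g : Fin 3 → R3 → ℂ} (hf : MemLp f 2 volume)
    (hg : ∀ k, MemLp (g k) 2 volume) (h : ∀ k, IsWD volume (H382.e3 k) f (g k)) :
    (1 / 2) * (∑ k, ∫ x, (gorb i k x : ℂ) * g k x) - ∫ x, ((orb i x / ‖x‖ : ℝ) : ℂ) * f x =
      (orbE i : ℂ) * ∫ x, (orb i x : ℂ) * f x := by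
  have l := fun {w : R3 → ℂ} (hw : MemLp w 2 (volume : Measure R3)) =>
      hw.locallyIntegrable (by norm_num : (1 : ℝ≥0∞) ≤ 2)
  have hr : H1 (fun x => (f x).re) (fun k x => (g k x).re) :=
    ⟨hf.re, fun k => (hg k).re, fun k => isWD_re (h k) (l hf) (l (hg k))⟩
  have hi : H1 (fun x => (f x).im) (fun k x => (g k x).im) :=
    ⟨hf.im, fun k => (hg k).im, fun k => isWD_im (h k) (l hf) (l (hg k))⟩
  have e1 := orb_eig i hr
  have e2 := orb_eig i hi
  simp only [integral_ofReal_mul_eq (gorb_memLp i _) (hg _),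
    integral_ofReal_mul_eq (orb_div_memLp i) hf, integral_ofReal_mul_eq (orb_memLp i) hf,
    Finset.sum_add_distrib, ← Finset.sum_mul, ← Complex.ofReal_sum]
  have e1' := congrArg (fun t : ℝ => (t : ℂ)) e1
  have e2' := congrArg (fun t : ℝ => (t : ℂ)) e2
  push_cast at e1' e2' ⊢
  linear_combination e1' + Complex.I * e2'

end

end Vale.Agent.P363.H700
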