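import Vale.Agent.P363.H700.Sums
import Vale.Agent.P363.H700.Form1
import Vale.Agent.P363.H700.OrbEig
import Vale.Agent.P363.H382.Energy
import Vale.Agent.P363.R2.h518.Extend

/-! The natural family of one state: real and imaginary parts of the contractions with an
orthonormal basis of `L²(Conf n)`. -/

namespace Vale.Agent.P363.H700

open MeasureTheory Filter Topology
open Vale.Agent.P363.Stmt Vale.Agent.P363.R.Sob Vale.Agent.P363.H382
open Vale.Agent.P363.H518 (IsONB coef)
open Vale.Agent.P363.R.KS (H1 qf)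
open scoped ContDiff ENNReal NNReal ComplexConjugate

noncomputable section

set_option linter.unusedSectionVars false

/-- real or imaginary part -/
def part (t : Bool) (z : ℂ) : ℝ := if t then z.re else z.im

theorem part_sum_sq (z : ℂ) : part true z ^ 2 + part false z ^ 2 = ‖z‖ ^ 2 := by
  simp only [part, if_true, Bool.false_eq_true, if_false]
  rw [Complex.sq_norm, Complex.normSq_apply]; ring

theorem hasSum_part (z : ℂ) (c : ℝ) : HasSum (fun t => (c * part t z) ^ 2) (c ^ 2 * ‖z‖ ^ 2) := by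
  have := hasSum_fintype (fun t : Bool => (c * part t z) ^ 2)
  rw [Fintype.sum_bool] at this
  rw [← part_sum_sq]
  convert this using 1
  ring

theorem part_memLp {α : Type*} [MeasurableSpace α] {μ : Measure α} {f : α → ℂ} (t : Bool)
    (hf : MemLp f 2 μ) : MemLp (fun x => part t (f x)) 2 μ := by
  cases t
  · exact hf.im
  · exact hf.re

theorem part_isWD {v : R3} {f g : R3 → ℂ} (t : Bool) (h : IsWD volume v f g)
    (hf : MemLp f 2 volume) (hg : MemLp g 2 volume) :
    IsWD volume v (fun x => part t (f x)) (fun x => part t (g x)) := by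
  have lf : LocallyIntegrable f volume := hf.locallyIntegrable (by norm_num)
  have lg : LocallyIntegrable g volume := hg.locallyIntegrable (by norm_num)
  cases t
  · exact isWD_im h lf lg
  · exact isWD_re h lf lg

section state

variable {n : ℕ} {κ : Type} {b : κ → Conf n → ℂ} (Ψ : ElectronState (n + 1))

/-- index set of the family -/
abbrev JJ (n : ℕ) (κ : Type) : Type := Spn (n + 1) × κ × Bool

/-- member of the natural family -/
def nf (b : κ → Conf n → ℂ) (Ψ : ElectronState (n + 1)) (j : JJ n κ) (x : R3) : ℝ :=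
  Real.sqrt (n + 1) * part j.2.2 (contr (b j.2.1) (Ψ.amp j.1) x)

/-- its gradient -/
def ng (b : κ → Conf n → ℂ) (Ψ : ElectronState (n + 1)) (j : JJ n κ) (k : Fin 3) (x : R3) : ℝ :=
  Real.sqrt (n + 1) * part j.2.2 (contr (b j.2.1) (Ψ.grad j.1 0 k) x)

theorem nf_H1 (hb : IsONB volume b) (j : JJ n κ) : H1 (nf b Ψ j) (ng b Ψ j) := by
  have m1 := memLp_contr (hb.mem j.2.1) (amp_L2 Ψ j.1)
  have m2 := fun k => memLp_contr (hb.mem j.2.1) (grad_L2 Ψ j.1 0 k)
  refine ⟨(part_memLp _ m1).const_mul _, fun k => (part_memLp _ (m2 k)).const_mul _, fun k => ?_⟩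
  have := isWD_contr (hb.mem j.2.1) (amp_L2 Ψ j.1) (grad_L2 Ψ j.1 0 k) (grad_WD Ψ j.1 0 k)
  exact (part_isWD j.2.2 this m1 (m2 k)).const_smul (Real.sqrt (n + 1))

/-- Parseval on slices -/
theorem ae_hasSum_contr [Countable κ] (hb : IsONB volume b) {f : Conf (n + 1) → ℂ}
    (hf : MemLp f 2 volume) :
    ∀ᵐ x : R3, HasSum (fun m => ‖contr (b m) f x‖ ^ 2) (∫ y : Conf n, ‖f (Fin.cons x y)‖ ^ 2) := by
  filter_upwards [ae_memLp_rest hf] with x hx
  exact hb.hasSum hx

theorem int_slice {f : Conf (n + 1) → ℂ} (hf : MemLp f 2 volume) :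
    Integrable (fun x : R3 => ∫ y : Conf n, ‖f (Fin.cons x y)‖ ^ 2) ∧
      ∫ x : R3, ∫ y : Conf n, ‖f (Fin.cons x y)‖ ^ 2 = ∫ x, ‖f x‖ ^ 2 := by
  have h1 : Integrable (fun x => ‖f x‖ ^ 2) := (memLp_two_iff_integrable_sq_norm hf.1).1 hf
  have h := integrable_unc_iff.2 h1
  refine ⟨h.integral_prod_left, ?_⟩
  rw [← integral_unc (fun x => ‖f x‖ ^ 2), Measure.volume_eq_prod, integral_prod _ h]
  rfl

theorem hasSum_int_contr [Countable κ] (hb : IsONB volume b) {f : Conf (n + 1) → ℂ}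
    (hf : MemLp f 2 volume) :
    HasSum (fun m => ∫ x, ‖contr (b m) f x‖ ^ 2) (∫ x, ‖f x‖ ^ 2) := by
  rw [← (int_slice hf).2]
  refine hasSum_integral_nonneg (fun m => ?_) (fun m x => by positivity) (ae_hasSum_contr hb hf)
    (int_slice hf).1
  have := memLp_contr (hb.mem m) hf
  exact (memLp_two_iff_integrable_sq_norm this.1).1 this

/-- sum over the index set of squares of parts -/
theorem hasSum_JJ {F : Spn (n + 1) → κ → ℂ} {A : Spn (n + 1) → ℝ}
    (h : ∀ s, HasSum (fun m => ‖F s m‖ ^ 2) (A s)) :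
    HasSum (fun j : JJ n κ => (Real.sqrt (n + 1) * part j.2.2 (F j.1 j.2.1)) ^ 2)
      ((n + 1 : ℝ) * ∑ s, A s) := by
  have hn : Real.sqrt ((n : ℝ) + 1) ^ 2 = n + 1 := Real.sq_sqrt (by positivity)
  have h1 : ∀ s, HasSum (fun q : κ × Bool => (Real.sqrt (n + 1) * part q.2 (F s q.1)) ^ 2)
      ((n + 1 : ℝ) * A s) := by
    intro s
    refine hasSum_prod_nonneg (fun q => by positivity) (fun m => hasSum_part (F s m) _) ?_
    rw [hn]
    exact (h s).mul_left _
  refine hasSum_prod_nonneg (f := fun j : JJ n κ =>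
    (Real.sqrt (n + 1) * part j.2.2 (F j.1 j.2.1)) ^ 2) (fun q => by positivity) h1 ?_
  rw [Finset.mul_sum]
  exact hasSum_fintype _

theorem nf_dens [Countable κ] (hb : IsONB volume b) :
    ∀ᵐ x, HasSum (fun j => nf b Ψ j x ^ 2) (density Ψ x) := by
  have h : ∀ᵐ x : R3, ∀ s, HasSum (fun m => ‖contr (b m) (Ψ.amp s) x‖ ^ 2)
      (∫ y : Conf n, ‖Ψ.amp s (Fin.cons x y)‖ ^ 2) :=
    ae_all_iff.2 fun s => ae_hasSum_contr hb (amp_L2 Ψ s)
  filter_upwards [h] with x hx
  rw [density_eq]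
  exact hasSum_JJ (F := fun s m => contr (b m) (Ψ.amp s) x) hx

/-- Parseval for integrals. -/
theorem hasSum_JJ_int [Countable κ] (hb : IsONB volume b) (f : Spn (n + 1) → Conf (n + 1) → ℂ)
    (hf : ∀ s, MemLp (f s) 2 volume) :
    HasSum (fun j : JJ n κ => ∫ x, (Real.sqrt (n + 1) * part j.2.2 (contr (b j.2.1) (f j.1) x)) ^ 2)
      ((n + 1 : ℝ) * ∑ s, ∫ x, ‖f s x‖ ^ 2) := by
  have hn : Real.sqrt ((n : ℝ) + 1) ^ 2 = n + 1 := Real.sq_sqrt (by positivity)
  have h0 : ∀ s (m : κ), HasSum (fun t : Bool =>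
      ∫ x, (Real.sqrt (n + 1) * part t (contr (b m) (f s) x)) ^ 2)
      ((n + 1 : ℝ) * ∫ x, ‖contr (b m) (f s) x‖ ^ 2) := by
    intro s m
    have hc := memLp_contr (hb.mem m) (hf s)
    have hi : ∀ t, Integrable (fun x => (Real.sqrt (n + 1) * part t (contr (b m) (f s) x)) ^ 2) :=
      fun t => (((part_memLp t hc).const_mul (Real.sqrt (n + 1))).integrable_sq)
    have := hasSum_fintype (fun t : Bool =>
      ∫ x, (Real.sqrt (n + 1) * part t (contr (b m) (f s) x)) ^ 2)
    rw [Fintype.sum_bool, ← integral_add (hi _) (hi _)] at this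
    convert this using 1
    rw [← integral_const_mul]
    congr 1; funext x
    rw [← part_sum_sq]
    linear_combination (-(part true (contr (b m) (f s) x) ^ 2 +
      part false (contr (b m) (f s) x) ^ 2)) * hn
  have h1 : ∀ s, HasSum (fun q : κ × Bool =>
      ∫ x, (Real.sqrt (n + 1) * part q.2 (contr (b q.1) (f s) x)) ^ 2)
      ((n + 1 : ℝ) * ∫ x, ‖f s x‖ ^ 2) := by
    intro s
    exact hasSum_prod_nonneg (fun q => integral_nonneg fun x => by positivity) (h0 s)
      ((hasSum_int_contr hb (hf s)).mul_left _)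
  refine hasSum_prod_nonneg (f := fun j : JJ n κ =>
    ∫ x, (Real.sqrt (n + 1) * part j.2.2 (contr (b j.2.1) (f j.1) x)) ^ 2)
    (fun q => integral_nonneg fun x => by positivity) h1 ?_
  rw [Finset.mul_sum]
  exact hasSum_fintype _

theorem nf_mass [Countable κ] (hb : IsONB volume b) :
    HasSum (fun j => ∫ x, nf b Ψ j x ^ 2) ((n + 1 : ℝ) * normSq Ψ) :=
  hasSum_JJ_int hb Ψ.amp (amp_L2 Ψ)

theorem nf_kin [Countable κ] (hb : IsONB volume b) :
    HasSum (fun j => ∫ x, ∑ k, ng b Ψ j k x ^ 2) (2 * H574.kinE Ψ) := by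
  have h1 : ∀ k, HasSum (fun j => ∫ x, ng b Ψ j k x ^ 2)
      ((n + 1 : ℝ) * ∑ s, ∫ x, ‖Ψ.grad s 0 k x‖ ^ 2) := fun k =>
    hasSum_JJ_int hb (fun s => Ψ.grad s 0 k) (fun s => grad_L2 Ψ s 0 k)
  have h2 := hasSum_sum (fun k (_ : k ∈ (Finset.univ : Finset (Fin 3))) => h1 k)
  have e : 2 * H574.kinE Ψ = ∑ k : Fin 3, (n + 1 : ℝ) * ∑ s, ∫ x, ‖Ψ.grad s 0 k x‖ ^ 2 := by
    have h3 : 2 * H574.kinE Ψ = H382.kinE Ψ := by
      simp only [H574.kinE, H382.kinE, intR_eq]; ring
    rw [h3, kinE_eq, ← Finset.mul_sum]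
    congr 1
    exact Finset.sum_comm
  rw [e]
  have e2 : (fun j => ∫ x, ∑ k, ng b Ψ j k x ^ 2) =
      fun j => ∑ k : Fin 3, ∫ x, ng b Ψ j k x ^ 2 := by
    funext j
    rw [integral_finsetSum]
    intro k _
    exact ((nf_H1 Ψ hb j).gmem k).integrable_sq
  rw [e2]
  exact h2

theorem nf_pot_aux [Countable κ] (hb : IsONB volume b) {v : R3 → ℝ} (hv : MemV v) :
    Summable (fun j => ∫ x, ‖v x * nf b Ψ j x ^ 2‖) := by
  have h1 := (nf_kin Ψ hb).summable
  have h2 := (nf_mass Ψ hb).summable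
  refine Summable.of_nonneg_of_le (fun j => integral_nonneg fun x => norm_nonneg _) (fun j => ?_)
    (h1.add (h2.mul_left (formC hv one_pos)))
  have h := (H1.form_bound (nf_H1 Ψ hb j) hv one_pos).2
  have e1 : ∫ x, ‖v x * nf b Ψ j x ^ 2‖ = ∫ x, |v x| * nf b Ψ j x ^ 2 := by
    congr 1; funext x
    rw [norm_mul, Real.norm_eq_abs, Real.norm_of_nonneg (by positivity)]
  have e2 : ∫ x, ∑ k, ng b Ψ j k x ^ 2 = ∑ k : Fin 3, ∫ x, ng b Ψ j k x ^ 2 := by
    rw [integral_finsetSum]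
    intro k _
    exact ((nf_H1 Ψ hb j).gmem k).integrable_sq
  rw [e1, e2]
  linarith

theorem nf_pot [Countable κ] (hb : IsONB volume b) {v : R3 → ℝ} (hv : MemV v) :
    HasSum (fun j => ∫ x, v x * nf b Ψ j x ^ 2) (∫ x, v x * density Ψ x) := by
  refine (integrable_of_hasSum (fun j => (H1.form_bound (nf_H1 Ψ hb j) hv one_pos).1)
    (nf_pot_aux Ψ hb hv) ?_).2
  filter_upwards [nf_dens Ψ hb] with x hx
  exact hx.mul_left (v x)

theorem qf_self {v : R3 → ℝ} {f : R3 → ℝ} {g : Fin 3 → R3 → ℝ} :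
    qf v 0 f g f g = (1 / 2) * (∫ x, ∑ k, g k x ^ 2) + ∫ x, v x * f x ^ 2 := by
  unfold qf
  congr 1
  · congr 2; funext x; exact Finset.sum_congr rfl fun k _ => by ring
  · congr 1; funext x; ring

theorem nf_en [Countable κ] (hb : IsONB volume b) {v : R3 → ℝ} (hv : MemV v) :
    HasSum (fun j => qf v 0 (nf b Ψ j) (ng b Ψ j) (nf b Ψ j) (ng b Ψ j))
      (energy (sumPotential v) Ψ) := by
  simp only [qf_self]
  rw [energy_sumPotential hv]
  have := ((nf_kin Ψ hb).mul_left (1 / 2)).add (nf_pot Ψ hb hv)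
  have e : 1 / 2 * (2 * H574.kinE Ψ) = H574.kinE Ψ := by ring
  rw [e] at this
  exact this

/-- Fubini for contractions. -/
theorem int_contr {g : Conf n → ℂ} {u : R3 → ℂ} {f : Conf (n + 1) → ℂ} (hg : MemLp g 2 volume)
    (hu : MemLp u 2 volume) (hf : MemLp f 2 volume) :
    ∫ x, conj (u x) * contr g f x = coef volume g (contrL u f) := by
  have h1 : Integrable (fun z : R3 × Conf n => conj (u z.1 * g z.2) * unc f z)
      ((volume : Measure R3).prod volume) :=
    H518.integrable_coef (H518.memLp_mul_prod hu hg) (memLp_unc hf)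
  have e1 := integral_prod _ h1
  have e2 := integral_prod_symm _ h1
  rw [e1] at e2
  calc ∫ x, conj (u x) * contr g f x
      = ∫ x, ∫ y, conj (u x * g y) * unc f (x, y) := by
        congr 1; funext x
        rw [contr, ← integral_const_mul]
        congr 1; funext y
        simp only [map_mul, unc]; ring
    _ = ∫ y, ∫ x, conj (u x * g y) * unc f (x, y) := e2
    _ = _ := by
        rw [coef]
        congr 1; funext y
        rw [contrL, ← integral_const_mul]
        congr 1; funext x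
        simp only [map_mul, unc]; ring

theorem part_ofReal_mul (t : Bool) (r : ℝ) (z : ℂ) : part t (r * z) = r * part t z := by
  cases t <;> simp [part]

theorem part_integral {α : Type*} [MeasurableSpace α] {μ : Measure α} {f : α → ℂ} (t : Bool)
    (hf : Integrable f μ) : ∫ x, part t (f x) ∂μ = part t (∫ x, f x ∂μ) := by
  cases t
  · exact integral_im hf
  · exact integral_re hf

/-- coefficients of a real function with respect to the family -/
theorem nf_coef [Countable κ] (hb : IsONB volume b) {u : R3 → ℝ} (hu : MemLp u 2 volume)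
    (j : JJ n κ) : ∫ x, u x * nf b Ψ j x =
      Real.sqrt (n + 1) * part j.2.2 (coef volume (b j.2.1) (contrL (fun x => (u x : ℂ)) (Ψ.amp j.1))) := by
  have hu' : MemLp (fun x => (u x : ℂ)) 2 volume := hu.ofReal
  have hc := memLp_contr (hb.mem j.2.1) (amp_L2 Ψ j.1)
  have hi : Integrable (fun x => (u x : ℂ) * contr (b j.2.1) (Ψ.amp j.1) x) :=
    hu'.integrable_mul hc
  rw [← int_contr (hb.mem j.2.1) hu' (amp_L2 Ψ j.1)]
  simp only [Complex.conj_ofReal]
  rw [← part_integral j.2.2 hi, ← integral_const_mul]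
  congr 1; funext x
  rw [part_ofReal_mul, nf]; ring

theorem nf_coef_sum [Countable κ] (hb : IsONB volume b) {u : R3 → ℝ} (hu : MemLp u 2 volume) :
    HasSum (fun j => (∫ x, u x * nf b Ψ j x) ^ 2)
      ((n + 1 : ℝ) * ∑ s, ∫ y, ‖contrL (fun x => (u x : ℂ)) (Ψ.amp s) y‖ ^ 2) := by
  simp only [nf_coef Ψ hb hu]
  have hu' : MemLp (fun x => (u x : ℂ)) 2 volume := hu.ofReal
  exact hasSum_JJ (F := fun s m => coef volume (b m) (contrL (fun x => (u x : ℂ)) (Ψ.amp s)))
    fun s => hb.hasSum (memLp_contrL hu' (amp_L2 Ψ s))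

end state

end

end Vale.Agent.P363.H700
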