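import Vale.Agent.P363.MathlibUsed

/-! Sums of integrals: countable families with summable norms, iterated nonnegative sums. -/

namespace Vale.Agent.P363.H700

open MeasureTheory Filter Topology
open scoped ENNReal

noncomputable section

theorem hasSum_prod_nonneg {α β : Type*} {f : α × β → ℝ} (hf : ∀ x, 0 ≤ f x) {g : α → ℝ} {a : ℝ}
    (h1 : ∀ i, HasSum (fun j => f (i, j)) (g i)) (h2 : HasSum g a) : HasSum f a := by
  have hs : Summable f := by
    rw [summable_prod_of_nonneg hf]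
    refine ⟨fun i => (h1 i).summable, ?_⟩
    have : (fun x => ∑' y, f (x, y)) = g := funext fun i => (h1 i).tsum_eq
    rw [this]; exact h2.summable
  have h3 : ∑' b, f b = a := (hs.hasSum.prod_fiberwise h1).unique h2
  exact h3 ▸ hs.hasSum

theorem integrable_of_hasSum {X : Type*} [MeasurableSpace X] {μ : Measure X} {ι : Type*}
    [Countable ι] {F : ι → X → ℝ} {G : X → ℝ} (hF : ∀ j, Integrable (F j) μ)
    (hS : Summable fun j => ∫ x, ‖F j x‖ ∂μ) (hs : ∀ᵐ x ∂μ, HasSum (fun j => F j x) (G x)) :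
    Integrable G μ ∧ HasSum (fun j => ∫ x, F j x ∂μ) (∫ x, G x ∂μ) := by
  refine ⟨⟨?_, ?_⟩, ?_⟩
  · refine aestronglyMeasurable_of_tendsto_ae (u := (atTop : Filter (Finset ι)))
      (f := fun s x => ∑ j ∈ s, F j x) (fun s => ?_) ?_
    · exact (integrable_finsetSum s fun j _ => hF j).1
    · filter_upwards [hs] with x hx using hx
  · have h1 : ∀ᵐ x ∂μ, ‖G x‖ₑ ≤ ∑' j, ‖F j x‖ₑ := by
      filter_upwards [hs] with x hx
      rw [← hx.tsum_eq]
      exact enorm_tsum_le_tsum_enorm
    have h2 : ∫⁻ x, ∑' j, ‖F j x‖ₑ ∂μ < ⊤ := by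
      rw [lintegral_tsum fun j => (hF j).1.enorm]
      have h3 : ∀ j, ∫⁻ x, ‖F j x‖ₑ ∂μ = ENNReal.ofReal (∫ x, ‖F j x‖ ∂μ) := fun j => by
        rw [ofReal_integral_norm_eq_lintegral_enorm (hF j)]
      simp only [h3]
      rw [← ENNReal.ofReal_tsum_of_nonneg (fun j => integral_nonneg fun x => norm_nonneg _) hS]
      exact ENNReal.ofReal_lt_top
    exact (lintegral_mono_ae h1).trans_lt h2
  · have h := hasSum_integral_of_summable_integral_norm hF hS
    have e : ∫ x, (∑' j, F j x) ∂μ = ∫ x, G x ∂μ := by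
      refine integral_congr_ae ?_
      filter_upwards [hs] with x hx using hx.tsum_eq
    rwa [e] at h

/-- nonnegative family with integrable sum. -/
theorem hasSum_integral_nonneg {X : Type*} [MeasurableSpace X] {μ : Measure X} {ι : Type*}
    [Countable ι] {F : ι → X → ℝ} {G : X → ℝ} (hF : ∀ j, Integrable (F j) μ)
    (h0 : ∀ j x, 0 ≤ F j x) (hs : ∀ᵐ x ∂μ, HasSum (fun j => F j x) (G x)) (hG : Integrable G μ) :
    HasSum (fun j => ∫ x, F j x ∂μ) (∫ x, G x ∂μ) := by
  refine (integrable_of_hasSum hF ?_ hs).2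
  have e : ∀ j, ∫ x, ‖F j x‖ ∂μ = ∫ x, F j x ∂μ := fun j => by
    congr 1; funext x; exact Real.norm_of_nonneg (h0 j x)
  simp only [e]
  refine summable_of_sum_le (fun j => integral_nonneg (h0 j)) (c := ∫ x, G x ∂μ) fun u => ?_
  rw [← integral_finsetSum u fun j _ => hF j]
  refine integral_mono_ae (integrable_finsetSum u fun j _ => hF j) hG ?_
  filter_upwards [hs] with x hx
  exact sum_le_hasSum u (fun j _ => h0 j x) hx

end

end Vale.Agent.P363.H700
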